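import Crest.Agent.N233.Lo.Wal
import Crest.Agent.N255.Ch.Amb

/-!
# Row 233 (helper91): the facts simplex by simplex give the quasi-isomorphism
-/

set_option autoImplicit false
set_option linter.unusedSectionVars false
open Finsupp

noncomputable section

namespace Crest.Agent.N233.Lo

open Crest.Agent.N255.Ch

variable {S S' K K' : Type} [DecidableEq S] [DecidableEq S'] [LinearOrder K] [LinearOrder K']

theorem sd_apply (car : S' → Finset S) (σ : Finset S' → ℤ) (a : Finset S' →₀ ℤ) (τ : Finset S) :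
    sd car σ a τ = pe (fu car σ τ) a := by
  induction a using Finsupp.induction_linear with
  | zero => simp
  | add a b ha hb => simp only [map_add, Finsupp.add_apply, ha, hb]
  | single t r =>
    rw [← smul_single_one t r, map_smul, map_smul, sd_single, Finsupp.smul_apply, Finsupp.smul_apply]
    simp [fu, single_apply]

namespace Sd

variable {Γ' : SimpleGraph S'} {col' : S' → K'} {Γ : SimpleGraph S} {col : S → K}
  (q : Sd Γ' col' Γ col)

theorem sub_up {U : Finset S} {t : Finset S'} : t ⊆ q.up U ↔ cr q.car t ⊆ U := by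
  simp only [cr, Finset.biUnion_subset, ← q.mem_up]; rfl

theorem up_mono {U U' : Finset S} (h : U ⊆ U') : q.up U ⊆ q.up U' := fun a ha =>
  (q.mem_up _ a).2 (((q.mem_up _ a).1 ha).trans h)

open Classical in
/-- the orientation, cut off outside the cliques -/
def sg (t : Finset S') : ℤ := if Γ'.IsClique (t : Set S') then q.σ t else 0

theorem pe_fu {U t0 : Finset S'} (τ : Finset S) {a : Finset S' →₀ ℤ} (h : a ∈ Sp (Q Γ' U t0)) :
    pe (fu q.car q.sg τ) a = pe (fu q.car q.σ τ) a := by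
  simp only [linearCombination_apply, Finsupp.sum]
  exact Finset.sum_congr rfl fun t ht => by
    simp only [fu, sg, if_pos (mem_Sp.1 h t (mem_support_iff.1 ht)).1]

theorem fu_ne {σ : Finset S' → ℤ} {τ : Finset S} {t : Finset S'} (h : fu q.car σ τ t ≠ 0) :
    cr q.car t = τ := by
  by_contra n
  exact h (if_neg n)

theorem sd_dq1 {U : Finset S} {t : Finset S'} (ht : t ∈ Q Γ' (q.up U) ∅) :
    sd q.car q.sg (dq Γ' col' (q.up U) (single t 1)) = dq Γ col U (sd q.car q.sg (single t 1)) := by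
  ext τ
  have hm := cl_Q (col := col') _ _ _ (single_mem ht (1 : ℤ))
  rw [sd_apply, q.pe_fu τ hm, sd_single, map_smul, Finsupp.smul_apply, sg, if_pos ht.1, smul_eq_mul]
  by_cases h : Γ.IsClique (τ : Set S) ∧ τ ⊆ U ∧ cr q.car t ⊆ τ
  · rw [← dq_restrict h.2.1 _ subset_rfl,
      ← q.chain τ h.1 t ⟨ht.1, ht.2.1, q.sub_up.2 h.2.2⟩]
    refine (pe_congr 1 fun t' h' => ?_).trans (one_mul _)
    rw [one_mul, dq_restrict (q.up_mono h.2.1) _ (q.sub_up.2 (q.fu_ne h').le)]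
  · have h1 : dq Γ col U (single (cr q.car t) 1) τ = 0 := by
      by_contra n
      obtain ⟨c, s, hs, -, rfl⟩ := dq_ne n
      exact h ⟨c, Finset.insert_subset hs (q.sub_up.1 ht.2.2), Finset.subset_insert _ _⟩
    rw [h1, mul_zero]
    refine pe_zero fun t' h' => by_contra fun n => h ?_
    obtain ⟨c, s, hs, -, e⟩ := dq_ne n
    have m := mem_Sp.1 hm t' n
    rw [← q.fu_ne h']
    exact ⟨q.clq _ c, q.sub_up.1 m.2.2, cr_mono _ (e ▸ Finset.subset_insert _ _)⟩

theorem sd_dq (U : Finset S) (a : Finset S' →₀ ℤ) (ha : a ∈ Sp (Q Γ' (q.up U) ∅)) :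
    sd q.car q.sg (dq Γ' col' (q.up U) a) = dq Γ col U (sd q.car q.sg a) :=
  sub_eq_zero.1 (eq_zero_on (f := sd q.car q.sg ∘ₗ dq Γ' col' (q.up U) - dq Γ col U ∘ₗ sd q.car q.sg)
    (fun _ ht => sub_eq_zero.2 (q.sd_dq1 ht)) ha)

/-- the cells whose carrier has at least `n` vertices -/
def Hi (U : Finset S) (t0 : Finset S') (n : ℕ) : Set (Finset S') :=
  Q Γ' (q.up U) t0 ∩ {t | n ≤ (cr q.car t).card}

theorem cl_Hi (U : Finset S) (t0 : Finset S') (n : ℕ) : Cl (dq Γ' col' (q.up U)) (Sp (q.Hi U t0 n)) :=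
  cl_Sp fun t ht y hy => ⟨mem_Sp.1 (cl_Q _ _ _ (single_mem ht.1 (1 : ℤ))) y hy, by
    obtain ⟨-, s, -, -, rfl⟩ := dq_ne hy
    exact le_trans ht.2 (Finset.card_le_card (cr_mono _ (Finset.subset_insert _ _)))⟩

/-- on the lowest layer the coboundary respects the carrier -/
theorem dq_low {U τ : Finset S} {t0 : Finset S'} {n : ℕ} {b : Finset S' →₀ ℤ}
    (hb : b ∈ Sp (q.Hi U t0 n)) (hτ : τ ⊆ U) (hn : τ.card ≤ n) {t : Finset S'} (ht : t ⊆ q.up τ) :
    dq Γ' col' (q.up τ) (rs {t | cr q.car t = τ} b) t = dq Γ' col' (q.up U) b t := by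
  rw [← dq_restrict (q.up_mono hτ) _ ht, dq_apply, dq_apply]
  split_ifs
  · refine Finset.sum_congr rfl fun s _ => ?_
    by_cases e : cr q.car (t.erase s) = τ
    · rw [rs_of_mem _ (show t.erase s ∈ {t | cr q.car t = τ} from e)]
    · rw [rs_of_notMem _ (show t.erase s ∉ {t | cr q.car t = τ} from e)]
      by_cases z : b (t.erase s) = 0
      · rw [z]
      · exact absurd (Finset.eq_of_subset_of_card_le
          (q.sub_up.1 ((Finset.erase_subset _ _).trans ht)) (hn.trans (mem_Sp.1 hb _ z).2)) e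
  · rfl

/-- one simplex -/
theorem step1 {U τ : Finset S} {t0 : Finset S'} {n : ℕ} {b : Finset S' →₀ ℤ}
    (h0 : t0 ∈ Q Γ' (q.up U) ∅) (hb : b ∈ Sp (q.Hi U t0 n)) (hd : dq Γ' col' (q.up U) b = 0)
    (hs : sd q.car q.sg b = 0) (hn : τ.card = n) :
    ∃ a ∈ Sp (Q Γ' (q.up U) t0 ∩ {t | cr q.car t = τ}), sd q.car q.sg a = 0 ∧
      ∀ t, cr q.car t = τ → dq Γ' col' (q.up U) a t = b t := by
  by_cases z : rs {t | cr q.car t = τ} b = 0
  · refine ⟨0, zero_mem _, map_zero _, fun t ht => ?_⟩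
    rw [map_zero, ← rs_of_mem b (show t ∈ {t | cr q.car t = τ} from ht), z]
  obtain ⟨t1, h1⟩ : ∃ t1, rs {t | cr q.car t = τ} b t1 ≠ 0 := by
    by_contra n
    exact z (Finsupp.ext fun t => by_contra fun e => n ⟨t, e⟩)
  have m1 := mem_Sp.1 (rs_mem_inter {t | cr q.car t = τ} hb) t1 h1
  have e1 : cr q.car t1 = τ := m1.2
  have cτ : Γ.IsClique (τ : Set S) := e1 ▸ q.clq _ m1.1.1.1
  have hτ : τ ⊆ U := e1 ▸ q.sub_up.1 m1.1.1.2.2
  have k0 : t0 ∈ Q Γ' (q.up τ) ∅ := ⟨h0.1, h0.2.1, q.sub_up.2 (e1 ▸ cr_mono _ m1.1.1.2.1)⟩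
  have mb : rs {t | cr q.car t = τ} b ∈ Sp (Q Γ' (q.up τ) t0 ∩ {t | cr q.car t = τ}) :=
    mem_Sp.2 fun t ht =>
      have m := mem_Sp.1 (rs_mem_inter {t | cr q.car t = τ} hb) t ht
      ⟨⟨m.1.1.1, m.1.1.2.1, q.sub_up.2 (le_of_eq m.2)⟩, m.2⟩
  obtain ⟨a, ha, e⟩ := q.ex τ cτ t0 k0 _ mb (Finsupp.ext fun t => by_contra fun n => n (by
      rw [q.dq_low hb hτ hn.le (mem_Sp.1 (cl_Q _ _ _ (Sp_mono Set.inter_subset_left mb)) t n).2.2,
        hd])) (by
      rw [pe_rs (V := {t | cr q.car t = τ}) fun t ht => q.fu_ne ht, ← q.pe_fu τ (Sp_mono Set.inter_subset_left hb), ← sd_apply, hs]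
      rfl)
  have ma := rs_mem_inter {t : Finset S' | t.card ≠ τ.card} ha
  refine ⟨rs {t | t.card ≠ τ.card} a, mem_Sp.2 fun t ht => ?_, ?_, fun t ht => ?_⟩
  · have m := (mem_Sp.1 ma t ht).1
    exact ⟨⟨m.1.1, m.1.2.1, m.1.2.2.trans (q.up_mono hτ)⟩, m.2⟩
  · refine eq_zero_on (fun t ht => ?_) ma
    rw [sd_single, sg, if_pos ht.1.1.1]
    by_cases z : q.σ t = 0
    · rw [z, zero_smul]
    · exact absurd ((q.σ_card t ht.1.1.1 z).trans (congrArg _ ht.1.2)) ht.2
  · have full : dq Γ' col' (q.up τ) (rs {t : Finset S' | t.card ≠ τ.card}ᶜ a) = 0 :=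
      eq_zero_on (fun t ht => Finsupp.ext fun y => by_contra fun n => by
        obtain ⟨c, s, hs, ns, rfl⟩ := dq_ne n
        have h1 := q.dim _ c
        have h2 := Finset.card_le_card (q.sub_up.1 (Finset.insert_subset hs ht.1.1.2.2))
        have h3 : t.card = τ.card := not_not.1 ht.2
        rw [Finset.card_insert_of_notMem ns] at h1
        omega) (rs_mem_inter _ ha)
    rw [← dq_restrict (q.up_mono hτ) _ (q.sub_up.2 ht.le), eq_sub_of_add_eq (rs_add_compl _ a), map_sub,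
      full, sub_zero, e, rs_of_mem _ (show t ∈ {t | cr q.car t = τ} from ht)]

variable (hc : ∀ s t, Γ'.Adj s t → col' s ≠ col' t)

/-- one layer -/
theorem step {U : Finset S} {t0 : Finset S'} {n : ℕ} {b : Finset S' →₀ ℤ}
    (h0 : t0 ∈ Q Γ' (q.up U) ∅) (hb : b ∈ Sp (q.Hi U t0 n)) (hd : dq Γ' col' (q.up U) b = 0)
    (hs : sd q.car q.sg b = 0) : ∃ a ∈ Sp (Q Γ' (q.up U) t0), sd q.car q.sg a = 0 ∧
      b - dq Γ' col' (q.up U) a ∈ Sp (q.Hi U t0 (n + 1)) := by
  choose! a ha hz he using fun (τ : Finset S) (hn : τ.card = n) => q.step1 h0 hb hd hs hn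
  have hi : ∀ τ, τ.card = n → a τ ∈ Sp (q.Hi U t0 n) := fun τ hn =>
    Sp_mono (fun t ht => And.intro ht.1 (by
      rw [Set.mem_ofPred_eq, show cr q.car t = τ from ht.2, hn])) (ha τ hn)
  have mem : ∀ τ ∈ U.powersetCard n, τ.card = n := fun τ h => (Finset.mem_powersetCard.1 h).2
  have sm : ∑ τ ∈ U.powersetCard n, a τ ∈ Sp (q.Hi U t0 n) := sum_mem fun τ h => hi τ (mem τ h)
  refine ⟨∑ τ ∈ U.powersetCard n, a τ, Sp_mono Set.inter_subset_left sm, ?_, mem_Sp.2 fun t ht => ?_⟩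
  · rw [map_sum]
    exact Finset.sum_eq_zero fun τ h => hz τ (mem τ h)
  have m := mem_Sp.1 (sub_mem hb (q.cl_Hi U t0 n _ sm)) t ht
  refine ⟨m.1, Nat.succ_le_of_lt (lt_of_le_of_ne (show n ≤ (cr q.car t).card from m.2) fun e => ht ?_)⟩
  have hU := q.sub_up.1 m.1.2.2
  rw [Finsupp.sub_apply, map_sum, Finsupp.finsetSum_apply, Finset.sum_eq_single (cr q.car t),
    he _ e.symm t rfl, sub_self]
  · intro τ h ne
    rw [← q.dq_low (hi τ (mem τ h)) hU e.ge (q.sub_up.2 subset_rfl),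
      (rs_eq_zero (U := {t' | cr q.car t' = cr q.car t})).2
        (Sp_mono (fun t' ht (e : cr q.car t' = cr q.car t) => ne (ht.2.symm.trans e))
          (ha τ (mem τ h))), map_zero]
    rfl
  · exact fun h => absurd (Finset.mem_powersetCard.2 ⟨hU, e.symm⟩) h

include hc in
theorem ker {U : Finset S} {t0 : Finset S'} (h0 : t0 ∈ Q Γ' (q.up U) ∅) (m : ℕ) :
    ∀ n, U.card < n + m → ∀ b ∈ Sp (q.Hi U t0 n), dq Γ' col' (q.up U) b = 0 → sd q.car q.sg b = 0 →
      ∃ a ∈ Sp (Q Γ' (q.up U) t0), sd q.car q.sg a = 0 ∧ dq Γ' col' (q.up U) a = b := by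
  induction m with
  | zero =>
    refine fun n hn b hb _ _ => ⟨0, zero_mem _, map_zero _, ?_⟩
    rw [map_zero]
    refine (Finsupp.ext fun t => by_contra fun e => ?_).symm
    have m := mem_Sp.1 hb t e
    exact absurd (le_trans m.2 (Finset.card_le_card (q.sub_up.1 m.1.2.2))) (by omega)
  | succ m ih =>
    intro n hn b hb hd hs
    obtain ⟨a, ha, hz, h⟩ := q.step h0 hb hd hs
    obtain ⟨c, hc', hz', e⟩ := ih (n + 1) (by omega) _ h (by rw [map_sub, hd, dq_dq hc, sub_zero])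
      (by rw [map_sub, hs, q.sd_dq U a (Sp_mono (Qi.Q_sub t0) ha), hz, map_zero, sub_zero])
    exact ⟨a + c, add_mem ha hc', by rw [map_add, hz, hz', add_zero], by rw [map_add, e, add_sub_cancel]⟩

/-- **the quasi-isomorphism** -/
def qi : Qi Γ' col' Γ col where
  car := q.car
  up := q.up
  σ := q.sg
  mem_up := q.mem_up
  car_ne := q.car_ne
  clq := q.clq
  σ_sup t h := by
    have c : Γ'.IsClique (t : Set S') := by_contra fun n => h (if_neg n)
    exact ⟨c, q.σ_card t c (by rwa [sg, if_pos c] at h)⟩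
  top τ h t0 h0 := by
    obtain ⟨t, ht, e, s⟩ := q.top τ h t0 h0
    exact ⟨t, ht, e, by rwa [sg, if_pos ht.1]⟩
  sd_dq := q.sd_dq
  ker U t0 h0 b hb := q.ker hc h0 (U.card + 1) 0 (by omega) b
    (Sp_mono (fun _ h => And.intro h (Nat.zero_le _)) hb)

@[simp] theorem qi_car : (q.qi hc).car = q.car := rfl
@[simp] theorem qi_up : (q.qi hc).up = q.up := rfl
@[simp] theorem qi_σ : (q.qi hc).σ = q.sg := rfl

end Sd

end Crest.Agent.N233.Lo

end
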