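import Crest.Agent.N233.Lo.Mir
import Crest.Agent.N233.Lo.Qi

/-!
# Row 233 (helper81): the facts about the block are transported to the subdivision
-/

set_option autoImplicit false

noncomputable section

namespace Crest.Agent.N233.Lo

open Crest.Agent.N255 Crest.Agent.N255.Ch Crest.Agent.N233.PS Finsupp
open Pb (Pr ix ix_pm mem_cr)

attribute [local irreducible] Pb.ixc

section base

variable {S S' K : Type} [DecidableEq S] [DecidableEq S'] [LinearOrder K]

/-- the coefficient of the top cell only depends on the colours -/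
theorem dq_top {G : SimpleGraph S} {col : S → K} (h : ∀ a b, G.Adj a b → col a ≠ col b)
    {τ ρ : Finset S} (hτ : G.IsClique (τ : Set S)) (hρ : ρ ⊆ τ) :
    dq G col τ (single ρ 1) τ =
      dq (⊤ : SimpleGraph K) id (τ.image col) (single (ρ.image col) 1) (τ.image col) := by
  have hi := injOn_col h hτ
  have ht : (⊤ : SimpleGraph K).IsClique (τ.image col : Finset K) := fun _ _ _ _ n => n
  rw [dq_apply, dq_apply, if_pos hτ, if_pos ht, Finset.inter_self, Finset.inter_self,
    Finset.sum_image hi]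
  refine Finset.sum_congr rfl fun s hs => ?_
  have he : (τ.image col).erase (col s) = (τ.erase s).image col := by
    ext k
    simp only [Finset.mem_erase, Finset.mem_image]
    constructor
    · rintro ⟨n, u, hu, rfl⟩
      exact ⟨u, ⟨fun e => n (e ▸ rfl), hu⟩, rfl⟩
    · rintro ⟨u, ⟨n, hu⟩, rfl⟩
      exact ⟨fun e => n (hi hu hs e), u, hu, rfl⟩
  have hi' : Set.InjOn col (τ.erase s : Finset S) := hi.mono (by simp)
  rw [he]
  congr 1
  · unfold eps
    rw [Finset.filter_image, Finset.card_image_of_injOn (hi'.mono (Finset.coe_subset.2 (Finset.filter_subset _ _)))]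
    rfl
  · simp only [single_apply]
    refine if_congr ⟨fun e => e ▸ rfl, fun e => ?_⟩ rfl rfl
    exact Finset.coe_injective ((hi.image_eq_image_iff (Finset.coe_subset.2 hρ) (by simp)).1
      (by rw [← Finset.coe_image, ← Finset.coe_image, e]))

end base

variable {S : Type} [DecidableEq S] {G : SimpleGraph S} {col : S → Fin 4}

/-- the carrier as a finite set -/
abbrev ca (a : PG G) : Finset S := a.1.support

theorem cr_ca (t : Finset (PG G)) : cr ca t = Pb.cr t := rfl

theorem cr_ix (h : Pr G col) (t : Finset (PG G)) : cr bc (t.image (ix col)) = (Pb.cr t).image col := by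
  rw [cr, Pb.cr, Finset.image_biUnion, Finset.biUnion_image]
  exact Finset.biUnion_congr rfl fun a _ => h.bc_ix a

section face

variable (h : Pr G col) {τ : Finset S} (hτ : G.IsClique (τ : Set S))

include h hτ

omit [DecidableEq S] h in
theorem cl_pair {a b : PG G} (ha : a ∈ st G τ) (hb : b ∈ st G τ) : G.IsClique (car a ∪ car b) :=
  hτ.subset (Set.union_subset (mem_st.1 ha) (mem_st.1 hb))

/-- the vertices over a face embed into the block -/
def jb : st G τ ↪ Fin 116 :=
  ⟨fun a => ix col a.1, fun a b e => Subtype.ext (h.ix_inj (cl_pair hτ a.2 b.2) e)⟩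

omit [DecidableEq S] in
theorem jb_adj (a b : st G τ) :
    BG.Adj (jb h hτ a) (jb h hτ b) ↔ ((psG G).comap Subtype.val).Adj a b :=
  h.adj_ix (cl_pair hτ a.2 b.2)

omit h hτ [DecidableEq S] in
theorem map_univ_st : (Finset.univ : Finset (st G τ)).map (.subtype _) = st G τ := by
  ext a
  simp

theorem map_univ_jb {U : Finset (Fin 116)} (hU : ∀ i, i ∈ U ↔ bc i ⊆ τ.image col) :
    (Finset.univ : Finset (st G τ)).map (jb h hτ) = U := by
  ext i
  rw [hU, Finset.mem_map]
  constructor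
  · rintro ⟨a, -, rfl⟩
    exact (h.bc_ix a.1).symm ▸ Finset.image_subset_image (mem_st'.1 a.2)
  · intro hi
    obtain ⟨a, ha, e⟩ := h.exists_ix hτ hi
    exact ⟨⟨a, mem_st'.2 ha⟩, Finset.mem_univ _, e⟩

omit [DecidableEq S] in
theorem map_jb (u : Finset (st G τ)) : u.map (jb h hτ) = (u.map (.subtype _)).image (ix col) := by
  rw [Finset.map_eq_image, Finset.map_eq_image, Finset.image_image]
  rfl

omit h hτ in
theorem cr_map_sub (u : Finset (st G τ)) : Pb.cr (u.map (.subtype _)) ⊆ τ :=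
  cr_sub_iff.2 fun a ha => by
    obtain ⟨b, -, rfl⟩ := Finset.mem_map.1 ha
    exact b.2

theorem cr_jb (u : Finset (st G τ)) :
    cr bc (u.map (jb h hτ)) = τ.image col ↔ Pb.cr (u.map (.subtype _)) = τ := by
  rw [map_jb, cr_ix h]
  refine ⟨fun e => ?_, fun e => by rw [e]⟩
  exact Finset.coe_injective (((h.injOn hτ).image_eq_image_iff
    (Finset.coe_subset.2 (cr_map_sub u)) subset_rfl).1
      (by rw [← Finset.coe_image, ← Finset.coe_image, e]))

end face

omit [DecidableEq S] in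
theorem exists_map_st {τ : Finset S} {t : Finset (PG G)} (ht : t ⊆ st G τ) :
    ∃ u : Finset (st G τ), u.map (.subtype _) = t := by
  obtain ⟨u, -, e⟩ := Finset.subset_map_iff.1 (map_univ_st (G := G) (τ := τ) ▸ ht)
  exact ⟨u, e.symm⟩

theorem Q_map_iff {A B : Type} {Γ : SimpleGraph A} {Γ' : SimpleGraph B} (j : B ↪ A)
    (hadj : ∀ x y, Γ.Adj (j x) (j y) ↔ Γ'.Adj x y) {U t0 t : Finset B} :
    t.map j ∈ Q Γ (U.map j) (t0.map j) ↔ t ∈ Q Γ' U t0 :=
  and_congr (clique_map j hadj t) (and_congr Finset.map_subset_map Finset.map_subset_map)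

omit [DecidableEq S] in
theorem Q_st {τ : Finset S} {u : Finset (st G τ)} (h : u.map (.subtype _) ∈ Q (psG G) (st G τ) ∅) :
    u ∈ Q ((psG G).comap Subtype.val) Finset.univ ∅ :=
  ⟨(clique_map (.subtype _) (fun _ _ => Iff.rfl) u).1 h.1, Finset.empty_subset _,
    Finset.subset_univ _⟩

theorem image_Q {A B : Type} {Γ : SimpleGraph A} {Γ' : SimpleGraph B} (j : B ↪ A)
    (hadj : ∀ x y, Γ.Adj (j x) (j y) ↔ Γ'.Adj x y) (U t0 : Finset B) (p : Finset A → Prop) :
    Finset.map j '' (Q Γ' U t0 ∩ {t | p (t.map j)}) = Q Γ (U.map j) (t0.map j) ∩ {t | p t} := by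
  ext t
  constructor
  · rintro ⟨u, hu, rfl⟩
    exact ⟨(Q_map_iff j hadj).2 hu.1, hu.2⟩
  · rintro ⟨ht, hp⟩
    obtain ⟨u, -, rfl⟩ := Finset.subset_map_iff.1 ht.2.2
    exact ⟨u, ⟨(Q_map_iff j hadj).1 ht, hp⟩, rfl⟩

/-- **the subdivision of a four-coloured flag complex** -/
def Sd.ps (B : Sd BG id (⊤ : SimpleGraph (Fin 4)) id) (hB : B.car = bc) (h : Pr G col) :
    Sd (psG G) (ix col) G col where
  car := ca
  up := st G
  σ t := B.σ (t.image (ix col))
  mem_up _ _ := mem_st'
  car_ne a := Finset.coe_nonempty.1 (car_nonempty a)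
  clq _ ht := h.cr_clique ht
  dim _ ht := card_le_cr ht
  σ_card t ht hs := by
    have hτ := h.cr_clique ht
    obtain ⟨u, e⟩ := exists_map_st (cr_sub_iff.1 (subset_refl (Pb.cr t)))
    have h1 := B.σ_card _ ((clique_map _ (jb_adj h hτ) u).2
      ((clique_map (.subtype _) (fun _ _ => Iff.rfl) u).1 (e.symm ▸ ht))) (by rwa [map_jb, e])
    rw [hB, (cr_jb h hτ u).2 (congrArg Pb.cr e), Finset.card_image_of_injOn (h.injOn hτ),
      Finset.card_map] at h1
    exact ((congrArg Finset.card e).symm.trans (Finset.card_map _)).trans h1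
  top τ hτ t0 ht0 := by
    obtain ⟨u0, rfl⟩ := exists_map_st ht0.2.2
    have hU := map_univ_jb h hτ (U := B.up (τ.image col)) fun i => by rw [B.mem_up, hB]
    replace ht0 := Q_st ht0
    obtain ⟨t, ht, e1, e2⟩ := B.top (τ.image col) (fun _ _ _ _ n => n) (u0.map (jb h hτ))
      (hU ▸ (Q_map_iff _ (jb_adj h hτ)).2 ht0)
    rw [← hU] at ht
    obtain ⟨u, -, rfl⟩ := Finset.subset_map_iff.1 ht.2.2
    rw [hB, cr_jb] at e1
    rw [map_jb] at e2
    refine ⟨u.map (.subtype _), ?_, e1, e2⟩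
    have := (Q_map_iff (Γ := psG G) (.subtype _) fun _ _ => Iff.rfl).2
      ((Q_map_iff _ (jb_adj h hτ)).1 ht)
    rwa [map_univ_st] at this
  chain τ hτ t ht := by
    obtain ⟨u, rfl⟩ := exists_map_st ht.2.2
    have hU := map_univ_jb h hτ (U := B.up (τ.image col)) fun i => by rw [B.mem_up, hB]
    replace ht := Q_st ht
    have h1 := B.chain (τ.image col) (fun _ _ _ _ n => n) (u.map (jb h hτ))
      (hU ▸ (Q_map_iff _ (jb_adj h hτ)).2 ht)
    rw [← hU, Pb.pe_dq' _ (jb_adj h hτ) (c' := fun a => ix col a.1) (fun _ => rfl), hB, map_jb,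
      cr_ix h, ← dq_top h hτ (cr_map_sub u)] at h1
    have h2 := Pb.pe_dq' (Γ := psG G) (Γ' := (psG G).comap Subtype.val) (c := ix col)
      (.subtype (· ∈ st G τ)) (fun _ _ => Iff.rfl)
      (c' := fun a => ix col a.1) (fun _ => rfl) (fu ca (fun t => B.σ (t.image (ix col))) τ)
      Finset.univ u
    rw [map_univ_st] at h2
    rw [h2, cr_ca, ← h1]
    congr 2
    ext t
    rw [fu, fu, cr_ca, ← map_jb h hτ]
    exact if_congr (cr_jb h hτ t).symm rfl rfl
  ex τ hτ t0 ht0 := by
    obtain ⟨u0, rfl⟩ := exists_map_st ht0.2.2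
    have hU := map_univ_jb h hτ (U := B.up (τ.image col)) fun i => by rw [B.mem_up, hB]
    replace ht0 := Q_st ht0
    have h1 := B.ex (τ.image col) (fun _ _ _ _ n => n) (u0.map (jb h hτ))
      (hU ▸ (Q_map_iff _ (jb_adj h hτ)).2 ht0)
    rw [← hU, ← image_Q _ (jb_adj h hτ), Pb.ex_iff _ (jb_adj h hτ) (c' := fun a => ix col a.1)
      (fun _ => rfl), hB] at h1
    have h2 := (Pb.ex_iff (Γ := psG G) (Γ' := (psG G).comap Subtype.val) (c := ix col)
      (.subtype (· ∈ st G τ)) (fun _ _ => Iff.rfl)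
      (c' := fun a => ix col a.1) (fun _ => rfl) Finset.univ
      (Q _ Finset.univ u0 ∩ {t | cr ca (t.map (.subtype _)) = τ})
      (fu ca (fun t => B.σ (t.image (ix col))) τ)).2 (by
        convert h1 using 3 with t t
        · rw [fu, fu, cr_ca, ← map_jb h hτ]
          exact if_congr (cr_jb h hτ t).symm rfl rfl
        · ext t
          exact (cr_jb h hτ t).symm)
    rwa [image_Q (Γ := psG G) _ (fun _ _ => Iff.rfl) _ _ fun t => cr ca t = τ, map_univ_st] at h2

section simp

variable (B : Sd BG id (⊤ : SimpleGraph (Fin 4)) id) (hB : B.car = bc) (h : Pr G col)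

@[simp] theorem Sd.ps_car : (Sd.ps B hB h).car = ca := rfl
@[simp] theorem Sd.ps_up : (Sd.ps B hB h).up = st G := rfl
theorem Sd.ps_σ (t : Finset (PG G)) : (Sd.ps B hB h).σ t = B.σ (t.image (ix col)) := rfl

/-- the orientation is natural -/
theorem Sd.ps_σ_pm {S' : Type} [DecidableEq S'] {G' : SimpleGraph S'} {col' : S' → Fin 4}
    (h' : Pr G' col') {j : S → S'} (hj : Nd G.IsClique G'.IsClique j) (hc : ∀ v, col' (j v) = col v)
    (t : Finset (PG G)) : (Sd.ps B hB h').σ (t.image (pm hj)) = (Sd.ps B hB h).σ t := by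
  rw [Sd.ps_σ, Sd.ps_σ, Finset.image_image]
  exact congrArg B.σ (Finset.image_congr fun a _ => ix_pm hj a fun v _ => hc v)

end simp

variable {F Nd Ed : Type} [Group F] [MulAction F Nd] [MulAction F Ed]

/-- the subdivision structure of the mirror model -/
def sdM (B : Sd BG id (⊤ : SimpleGraph (Fin 4)) id) (hB : B.car = bc)
    (M : Ce.Mir S (Fin 4) F Nd Ed) : Sd (mps M).Γ (mps M).col M.Γ M.col := Sd.ps B hB (mir_pr M)

theorem sdM_σ_smul (B : Sd BG id (⊤ : SimpleGraph (Fin 4)) id) (hB : B.car = bc)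
    (M : Ce.Mir S (Fin 4) F Nd Ed) (f : F) (t : Finset (PG M.Γ)) :
    (sdM B hB M).σ (t.image ((mps M).ρ f)) = (sdM B hB M).σ t :=
  Sd.ps_σ_pm B hB (mir_pr M) (mir_pr M) (nd_iso (M.ρ f)) (M.col_ρ f) t

/-- the chosen block structure -/
def BlkS.sd (hb : BlkS) : Sd BG id (⊤ : SimpleGraph (Fin 4)) id := Exists.choose hb

theorem BlkS.car (hb : BlkS) : hb.sd.car = bc := Exists.choose_spec hb

/-- **the quasi-isomorphism of the subdivision** -/
def qiPs (hb : BlkS) (h : Pr G col) : Qi (psG G) (ix col) G col :=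
  (Sd.ps hb.sd hb.car h).qi h.ix_ne

@[simp] theorem qiPs_car (hb : BlkS) (h : Pr G col) : (qiPs hb h).car = ca := rfl
@[simp] theorem qiPs_up (hb : BlkS) (h : Pr G col) : (qiPs hb h).up = st G := rfl

/-- the quasi-isomorphism of the mirror model -/
def qiM (hb : BlkS) (M : Ce.Mir S (Fin 4) F Nd Ed) : Qi (mps M).Γ (mps M).col M.Γ M.col :=
  qiPs hb (mir_pr M)

@[simp] theorem qiM_car (hb : BlkS) (M : Ce.Mir S (Fin 4) F Nd Ed) : (qiM hb M).car = ca := rfl
@[simp] theorem qiM_up (hb : BlkS) (M : Ce.Mir S (Fin 4) F Nd Ed) : (qiM hb M).up = st M.Γ := rfl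

theorem ca_smul (M : Ce.Mir S (Fin 4) F Nd Ed) (f : F) (a : PG M.Γ) :
    ca ((mps M).ρ f a) = (ca a).image (M.ρ f) :=
  Finset.coe_injective ((car_mps M f a).trans Finset.coe_image.symm)

theorem qiM_σ_smul (hb : BlkS) (M : Ce.Mir S (Fin 4) F Nd Ed) (f : F) (t : Finset (PG M.Γ)) :
    (qiM hb M).σ (t.image ((mps M).ρ f)) = (qiM hb M).σ t := by
  classical
  refine if_congr ⟨fun h => ?_, (mps M).clique_image f⟩ (sdM_σ_smul hb.sd hb.car M f t) rfl
  intro a ha b hb n
  exact ((mps M).ρ f).map_adj_iff.1 (h (Finset.mem_image_of_mem _ ha) (Finset.mem_image_of_mem _ hb)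
    (((mps M).ρ f).injective.ne n))

/-- **the local structure of the subdivided mirror model** -/
def locPs [DecidableEq Ed] (hb : BlkS) {M : Ce.Mir S (Fin 4) F Nd Ed} (L : Loc M) : Loc (mps M) :=
  locSd L (qiM hb M) rfl rfl rfl (fun _ => rfl) (ca_smul M) (qiM_σ_smul hb M)

end Crest.Agent.N233.Lo
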