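import Crest.Agent.N233.Lo.Defs

/-!
# Row 233, block Lo (helper75): a subdivision from acyclic links (acyclic models)
-/

set_option autoImplicit false
set_option linter.unusedSectionVars false
open Finsupp

noncomputable section

namespace Crest.Agent.N233.Lo

open Crest.Agent.N255.Ch

variable {S S' K K' : Type} [DecidableEq S] [DecidableEq S'] [LinearOrder K] [LinearOrder K']

/-- `x` is an apex of `t` inside `U` -/
def Apx (Γ' : SimpleGraph S') (U t : Finset S') (x : S') : Prop :=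
  x ∈ U ∧ x ∉ t ∧ Γ'.IsClique (insert x t : Finset S')

/-- at most one critical cell -/
def One (Γ' : SimpleGraph S') (col' : S' → K') (U t0 : Finset S') : Prop :=
  ∀ s : (Finset S' →₀ ℤ) →ₗ[ℤ] ℤ, (∀ a ∈ Sp (Q Γ' U t0), s (dq Γ' col' U a) = 0) →
    Top (dq Γ' col' U) s (Sp (Q Γ' U t0)) → Ex (dq Γ' col' U) s (Sp (Q Γ' U t0))

/-- the sign free facts about a subdivision -/
structure Pre (Γ' : SimpleGraph S') (col' : S' → K') (Γ : SimpleGraph S) (col : S → K) where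
  car : S' → Finset S
  up : Finset S → Finset S'
  rk : S' → ℕ
  hc' : ∀ s t, Γ'.Adj s t → col' s ≠ col' t
  hc : ∀ s t, Γ.Adj s t → col s ≠ col t
  mem_up : ∀ U a, a ∈ up U ↔ car a ⊆ U
  car_ne : ∀ a, (car a).Nonempty
  clq : ∀ t : Finset S', Γ'.IsClique (t : Set S') → Γ.IsClique (cr car t : Set S)
  dim : ∀ t : Finset S', Γ'.IsClique (t : Set S') → t.card ≤ (cr car t).card
  nest : ∀ t : Finset S', Γ'.IsClique (t : Set S') → t.Nonempty → ∃ a ∈ t, car a = cr car t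
  ext : ∀ τ : Finset S, Γ.IsClique (τ : Set S) → ∀ t ∈ Q Γ' (up τ) ∅, t.card < τ.card →
    ∃ x, Apx Γ' (up τ) t x
  b0 : ∀ τ : Finset S, Γ.IsClique (τ : Set S) → ∀ t ∈ Q Γ' (up τ) ∅, cr car t ≠ τ →
    Ex (dq Γ' col' (up τ)) 0 (Sp (Q Γ' (up τ) t))
  b1 : ∀ τ : Finset S, Γ.IsClique (τ : Set S) → ∀ t ∈ Q Γ' (up τ) ∅, One Γ' col' (up τ) t
  b2 : ∀ τ : Finset S, Γ.IsClique (τ : Set S) → ∀ t ∈ Q Γ' (up τ) ∅, cr car t ≠ τ →
    One Γ' col' ((up τ).filter fun a => car a ≠ τ) t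
  flip : ∀ τ : Finset S, Γ.IsClique (τ : Set S) → ∀ t ∈ Q Γ' (up τ) ∅, t.card = τ.card →
    t.Nonempty → ∃ s ∈ t, (cr car (t.erase s) ≠ τ ∧ ∀ x, Apx Γ' (up τ) (t.erase s) x → x = s) ∨
      (cr car (t.erase s) = τ ∧ ∃ s', rk s' < rk s ∧ s' ≠ s ∧ Apx Γ' (up τ) (t.erase s) s' ∧
        ∀ x, Apx Γ' (up τ) (t.erase s) x → x = s ∨ x = s')

theorem pe_eq {X : Type} {z : X → ℤ} {a b : X →₀ ℤ} (h : ∀ t, z t ≠ 0 → a t = b t) :
    pe z a = pe z b := by
  rw [← sub_eq_zero, ← map_sub, linearCombination_apply, Finsupp.sum]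
  refine Finset.sum_eq_zero fun t _ => ?_
  by_cases e : z t = 0
  · rw [e, smul_zero]
  · rw [Finsupp.sub_apply, h t e, sub_self, zero_smul]

theorem pe_single {X : Type} (z : X → ℤ) (t : X) (r : ℤ) : pe z (single t r) = r * z t :=
  linearCombination_single _ _ _

theorem dq_single_apx {Γ' : SimpleGraph S'} {col' : S' → K'} (U t : Finset S') (z : Finset S' → ℤ)
    (A : Finset S') (h : ∀ x, x ∈ A ↔ Apx Γ' U t x) :
    pe z (dq Γ' col' U (single t 1)) = ∑ x ∈ A, eps col' x t * z (insert x t) := by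
  classical
  rw [dq_single, one_smul, cof, map_sum]
  refine Finset.sum_congr (Finset.ext fun x => ?_) fun x _ => pe_single _ _ _
  rw [h, Finset.mem_filter]; rfl

theorem dq_no_apx {Γ' : SimpleGraph S'} {col' : S' → K'} {U t : Finset S'}
    (h : ∀ x, ¬Apx Γ' U t x) (r : ℤ) : dq Γ' col' U (single t r) = 0 := by
  classical
  rw [dq_single, cof, Finset.sum_eq_zero, smul_zero]
  exact fun x hx => (h x (Finset.mem_filter.1 hx)).elim

theorem anti {Γ : SimpleGraph S} {col : S → K} (hc : ∀ s t, Γ.Adj s t → col s ≠ col t)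
    {τ : Finset S} (hτ : Γ.IsClique (τ : Set S)) (F : Finset S → ℤ) :
    ∑ v ∈ τ, eps col v (τ.erase v) * ∑ w ∈ τ.erase v,
      eps col w ((τ.erase v).erase w) * F ((τ.erase v).erase w) = 0 := by
  let a : Finset S →₀ ℤ := onFinset τ.powerset (fun L => if L ⊆ τ then F L else 0)
    fun L h => Finset.mem_powerset.2 (by_contra fun e => h (if_neg e))
  have h := DFunLike.congr_fun (dq_dq (Γ := Γ) hc τ a) τ
  rw [dq_apply, if_pos hτ, Finset.inter_self, Finsupp.zero_apply] at h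
  rw [← h]
  refine Finset.sum_congr rfl fun v _ => ?_
  rw [dq_apply, if_pos (hτ.subset (by simp)), Finset.inter_eq_left.2 (Finset.erase_subset _ _)]
  congr 1
  refine Finset.sum_congr rfl fun w _ => ?_
  rw [onFinset_apply, if_pos ((Finset.erase_subset _ _).trans (Finset.erase_subset _ _))]

namespace Pre

variable {Γ' : SimpleGraph S'} {col' : S' → K'} {Γ : SimpleGraph S} {col : S → K}
  (P : Pre Γ' col' Γ col)

theorem sub_up {U : Finset S} {t : Finset S'} : t ⊆ P.up U ↔ cr P.car t ⊆ U := by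
  rw [cr, Finset.biUnion_subset]
  exact ⟨fun h a ha => (P.mem_up U a).1 (h ha), fun h a ha => (P.mem_up U a).2 (h a ha)⟩

theorem up_mono {U V : Finset S} (h : U ⊆ V) : P.up U ⊆ P.up V :=
  fun a ha => (P.mem_up V a).2 (((P.mem_up U a).1 ha).trans h)

theorem card_le {τ : Finset S} {t t0 : Finset S'} (h : t ∈ Q Γ' (P.up τ) t0) : t.card ≤ τ.card :=
  (P.dim t h.1).trans (Finset.card_le_card (P.sub_up.1 h.2.2))

theorem cr_eq {τ : Finset S} {t t0 : Finset S'} (h : t ∈ Q Γ' (P.up τ) t0) (e : t.card = τ.card) :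
    cr P.car t = τ :=
  Finset.eq_of_subset_of_card_le (P.sub_up.1 h.2.2) (e ▸ P.dim t h.1)

theorem Apx.mem {U t t0 : Finset S'} {x : S'} (h : Apx Γ' U t x) (ht : t ∈ Q Γ' U t0) :
    insert x t ∈ Q Γ' U t0 :=
  ⟨h.2.2, ht.2.1.trans (Finset.subset_insert _ _), Finset.insert_subset h.1 ht.2.2⟩

theorem no_apx {τ : Finset S} {t t0 : Finset S'} (h : t ∈ Q Γ' (P.up τ) t0) (e : t.card = τ.card)
    (x : S') : ¬Apx Γ' (P.up τ) t x := fun hx => by
  have := P.card_le (Apx.mem hx h)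
  rw [Finset.card_insert_of_notMem hx.2.1] at this
  omega

theorem full {τ : Finset S} (hτ : Γ.IsClique (τ : Set S)) (m : ℕ) : ∀ t0 ∈ Q Γ' (P.up τ) ∅,
    t0.card + m = τ.card → ∃ t ∈ Q Γ' (P.up τ) t0, t.card = τ.card := by
  induction m with
  | zero => exact fun t0 h0 e => ⟨t0, ⟨h0.1, subset_rfl, h0.2.2⟩, e⟩
  | succ m ih =>
    intro t0 h0 e
    obtain ⟨x, hx⟩ := P.ext τ hτ t0 h0 (by omega)
    obtain ⟨t, ht, c⟩ := ih _ (Apx.mem hx h0) (by rw [Finset.card_insert_of_notMem hx.2.1]; omega)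
    exact ⟨t, ⟨ht.1, (Finset.subset_insert _ _).trans ht.2.1, ht.2.2⟩, c⟩

theorem full' {τ : Finset S} (hτ : Γ.IsClique (τ : Set S)) {t0 : Finset S'}
    (h : t0 ∈ Q Γ' (P.up τ) ∅) : ∃ t ∈ Q Γ' (P.up τ) t0, t.card = τ.card :=
  P.full hτ (τ.card - t0.card) t0 h (by have := P.card_le h; omega)

open Classical in
/-- the fundamental chains -/
def gN : ℕ → Finset S → Finset S' → ℤ
  | 0, _, t => if t = ∅ then 1 else 0
  | n + 1, τ, t =>
    if h : t.card = n + 1 ∧ ∃ a ∈ Sp (Q Γ' (P.up τ) ∅), dq Γ' col' (P.up τ) a = single t 1 then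
      ∑ v ∈ τ, eps col v (τ.erase v) * pe (gN n (τ.erase v)) h.2.choose else 0

/-- the fundamental chain of `τ` -/
def g (τ : Finset S) : Finset S' → ℤ := P.gN τ.card τ

/-- the fundamental chain of the boundary -/
def zz (τ : Finset S) : (Finset S' →₀ ℤ) →ₗ[ℤ] ℤ :=
  ∑ v ∈ τ, eps col v (τ.erase v) • pe (P.g (τ.erase v))

theorem zz_apply (τ : Finset S) (a : Finset S' →₀ ℤ) :
    P.zz τ a = ∑ v ∈ τ, eps col v (τ.erase v) * pe (P.g (τ.erase v)) a := by
  simp [zz]

theorem gN_sup {n : ℕ} {τ : Finset S} {t : Finset S'} (h : P.gN n τ t ≠ 0) :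
    t ∈ Q Γ' (P.up τ) ∅ ∧ t.card = n := by
  cases n with
  | zero =>
    rw [gN] at h
    obtain rfl : t = ∅ := by_contra fun e => h (if_neg e)
    exact ⟨⟨by simp, subset_rfl, Finset.empty_subset _⟩, rfl⟩
  | succ n =>
    rw [gN] at h
    split_ifs at h with e
    · obtain ⟨e1, a, ha, e2⟩ := e
      exact ⟨mem_Sp.1 (e2 ▸ cl_Q _ _ a ha) t (by simp), e1⟩
    · exact absurd rfl h

theorem g_sup {τ : Finset S} {t : Finset S'} (h : P.g τ t ≠ 0) :
    t ∈ Q Γ' (P.up τ) ∅ ∧ t.card = τ.card := P.gN_sup h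

theorem g_cr {τ : Finset S} {t : Finset S'} (h : P.g τ t ≠ 0) : cr P.car t = τ :=
  P.cr_eq (P.g_sup h).1 (P.g_sup h).2

theorem g_empty : P.g ∅ ∅ = 1 := by simp [g, gN]

theorem cr_empty : cr P.car ∅ = ∅ := rfl

theorem g_top {τ : Finset S} (hτ : Γ.IsClique (τ : Set S)) (hn : τ.Nonempty) {t : Finset S'}
    (ht : t ∈ Q Γ' (P.up τ) ∅) (e : t.card = τ.card) :
    ∃ a ∈ Sp (Q Γ' (P.up τ) ∅), dq Γ' col' (P.up τ) a = single t 1 ∧ P.g τ t = P.zz τ a := by
  obtain ⟨n, hn'⟩ : ∃ n, τ.card = n + 1 := ⟨τ.card - 1, by have := hn.card_pos; omega⟩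
  have h : t.card = n + 1 ∧ ∃ a ∈ Sp (Q Γ' (P.up τ) ∅), dq Γ' col' (P.up τ) a = single t 1 :=
    ⟨e.trans hn', P.b0 τ hτ ∅ ⟨by simp, subset_rfl, Finset.empty_subset _⟩ hn.ne_empty.symm _
      (single_mem ht 1) (dq_no_apx (P.no_apx ht e) 1) rfl⟩
  refine ⟨h.2.choose, h.2.choose_spec.1, h.2.choose_spec.2, ?_⟩
  rw [g, hn', gN, dif_pos h, zz_apply]
  refine Finset.sum_congr rfl fun v hv => ?_
  rw [g, Finset.card_erase_of_mem hv, hn', Nat.add_sub_cancel]

theorem pe_g_dq {τ : Finset S} {U : Finset S'} (h : P.up τ ⊆ U) (a : Finset S' →₀ ℤ) :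
    pe (P.g τ) (dq Γ' col' U a) = pe (P.g τ) (dq Γ' col' (P.up τ) a) :=
  pe_eq fun _ ht => (dq_restrict h a (P.g_sup ht).1.2.2).symm

theorem zz_single {τ : Finset S} {t : Finset S'} (h : P.zz τ (single t 1) ≠ 0) :
    ∃ v ∈ τ, P.g (τ.erase v) t ≠ 0 := by
  rw [zz_apply] at h
  obtain ⟨v, hv, h⟩ := Finset.exists_ne_zero_of_sum_ne_zero h
  rw [pe_single, one_mul] at h
  exact ⟨v, hv, right_ne_zero_of_mul h⟩

/-- **Stokes** -/
theorem stokes (n : ℕ) : ∀ τ : Finset S, τ.card = n → Γ.IsClique (τ : Set S) → ∀ a,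
    pe (P.g τ) (dq Γ' col' (P.up τ) a) = P.zz τ a := by
  induction n with
  | zero =>
    intro τ e _ a
    obtain rfl := Finset.card_eq_zero.1 e
    rw [zz_apply, Finset.sum_empty, pe_eq (b := 0) fun t ht => ?_, map_zero]
    obtain rfl := Finset.card_eq_zero.1 (P.g_sup ht).2
    rw [dq_apply]; simp
  | succ n ih =>
    intro τ e hτ a
    have hn : τ.Nonempty := Finset.card_pos.1 (by omega)
    have z0 : ∀ a, P.zz τ (dq Γ' col' (P.up τ) a) = 0 := fun a => by
      rw [zz_apply, ← anti P.hc hτ fun L => pe (P.g L) a]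
      refine Finset.sum_congr rfl fun v hv => ?_
      rw [P.pe_g_dq (P.up_mono (Finset.erase_subset _ _)),
        ih _ (by rw [Finset.card_erase_of_mem hv]; omega) (hτ.subset (by simp)), zz_apply]
    have lift : ∀ b ∈ Sp {t | t ∈ Q Γ' (P.up τ) ∅ ∧ t.card = τ.card},
        ∃ c ∈ Sp (Q Γ' (P.up τ) ∅), dq Γ' col' (P.up τ) c = b ∧ pe (P.g τ) b = P.zz τ c := by
      intro b hb
      rw [Sp, supported_eq_span_single] at hb
      induction hb using Submodule.span_induction with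
      | mem x hx =>
        obtain ⟨t, ht, rfl⟩ := hx
        obtain ⟨c, h1, h2, h3⟩ := P.g_top hτ hn ht.1 ht.2
        exact ⟨c, h1, h2, by rw [pe_single, one_mul, h3]⟩
      | zero => exact ⟨0, Submodule.zero_mem _, map_zero _, by simp⟩
      | add x y _ _ hx hy =>
        obtain ⟨c, h1, h2, h3⟩ := hx
        obtain ⟨d, k1, k2, k3⟩ := hy
        exact ⟨c + d, Submodule.add_mem _ h1 k1, by rw [map_add, h2, k2], by
          rw [map_add, map_add, h3, k3]⟩
      | smul r x _ hx =>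
        obtain ⟨c, h1, h2, h3⟩ := hx
        exact ⟨r • c, Submodule.smul_mem _ _ h1, by rw [map_smul, h2], by
          rw [map_smul, map_smul, h3]⟩
    induction a using Finsupp.induction_linear with
    | zero => simp
    | add a b ha hb => simp only [map_add, ha, hb]
    | single t r =>
      rw [← mul_one r, ← smul_eq_mul, ← smul_single, map_smul, map_smul, map_smul]
      congr 1
      by_cases ht : t ∈ Q Γ' (P.up τ) ∅ ∧ t.card = n
      · obtain ⟨c, h1, h2, h3⟩ := lift (dq Γ' col' (P.up τ) (single t 1)) (mem_Sp.2 fun u hu => by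
          obtain ⟨h1, s, h2, h3, rfl⟩ := dq_ne hu
          exact ⟨Apx.mem ⟨h2, h3, h1⟩ ht.1, by rw [Finset.card_insert_of_notMem h3, ht.2, e]⟩)
        obtain ⟨d, -, hd⟩ := P.b0 τ hτ ∅ ⟨by simp, subset_rfl, Finset.empty_subset _⟩
          hn.ne_empty.symm _ (Submodule.sub_mem _ h1 (single_mem ht.1 1))
          (by rw [map_sub, h2, sub_self]) rfl
        rw [h3, ← sub_eq_zero, ← map_sub, ← hd, z0]
      · rw [pe_eq (b := 0) fun u hu => ?_, map_zero]
        · by_contra h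
          obtain ⟨v, hv, h⟩ := P.zz_single (Ne.symm h)
          obtain ⟨h1, h2⟩ := P.g_sup h
          exact ht ⟨⟨h1.1, h1.2.1, h1.2.2.trans (P.up_mono (Finset.erase_subset _ _))⟩, by
            rw [h2, Finset.card_erase_of_mem hv]; omega⟩
        · by_contra h
          obtain ⟨h1, s, h2, h3, rfl⟩ := dq_ne h
          obtain ⟨k1, k2⟩ := P.g_sup hu
          rw [Finset.card_insert_of_notMem h3] at k2
          exact ht ⟨⟨h1.subset (by simp), Finset.empty_subset _,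
            (Finset.subset_insert _ _).trans k1.2.2⟩, by omega⟩

theorem zz_face {τ : Finset S} {v : S} (hv : v ∈ τ) {t : Finset S'} (h : cr P.car t = τ.erase v) :
    P.zz τ (single t 1) = eps col v (τ.erase v) * P.g (τ.erase v) t := by
  rw [zz_apply, Finset.sum_eq_single_of_mem v hv, pe_single, one_mul]
  intro w hw e
  rw [pe_single, one_mul]
  by_contra c
  have := (P.g_cr (right_ne_zero_of_mul c)).symm.trans h
  exact Finset.notMem_erase v τ (this ▸ Finset.mem_erase.2 ⟨e.symm, hv⟩)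

theorem zz_int {τ : Finset S} {t : Finset S'} (h : ∀ v ∈ τ, cr P.car t ≠ τ.erase v) :
    P.zz τ (single t 1) = 0 := by
  by_contra c
  obtain ⟨v, hv, c⟩ := P.zz_single c
  exact h v hv (P.g_cr c)

theorem exists_erase {τ c : Finset S} (h : c ⊆ τ) (e : c ≠ τ) (l : τ.card ≤ c.card + 1) :
    ∃ v ∈ τ, c = τ.erase v := by
  obtain ⟨v, hv, hn⟩ := Finset.exists_of_ssubset (Finset.ssubset_iff_subset_ne.2 ⟨h, e⟩)
  refine ⟨v, hv, Finset.eq_of_subset_of_card_le (Finset.subset_erase.2 ⟨h, hn⟩) ?_⟩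
  rw [Finset.card_erase_of_mem hv]; omega

/-- the coefficients are units -/
theorem unit (n : ℕ) : ∀ τ : Finset S, τ.card = n → Γ.IsClique (τ : Set S) →
    ∀ t ∈ Q Γ' (P.up τ) ∅, t.card = τ.card → P.g τ t * P.g τ t = 1 := by
  induction n with
  | zero =>
    intro τ e _ t _ ht
    obtain rfl := Finset.card_eq_zero.1 e
    obtain rfl := Finset.card_eq_zero.1 ht
    rw [g_empty, mul_one]
  | succ n ih =>
    intro τ e hτ t ht c
    induction h : ∑ a ∈ t, P.rk a using Nat.strong_induction_on generalizing t with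
    | _ m ihm =>
    obtain ⟨s, hs, hf⟩ := P.flip τ hτ t ht c (Finset.card_pos.1 (by omega))
    have hu : t.erase s ∈ Q Γ' (P.up τ) ∅ := ⟨ht.1.subset (by simp), Finset.empty_subset _,
      (Finset.erase_subset _ _).trans ht.2.2⟩
    have a0 : Apx Γ' (P.up τ) (t.erase s) s := ⟨ht.2.2 hs, Finset.notMem_erase _ _, by
      rw [Finset.insert_erase hs]; exact ht.1⟩
    have cu : (t.erase s).card = n := by rw [Finset.card_erase_of_mem hs]; omega
    have st := P.stokes _ τ rfl hτ (single (t.erase s) 1)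
    rcases hf with ⟨h1, h2⟩ | ⟨h1, s', h2, h3, h4, h5⟩
    · obtain ⟨v, hv, k⟩ := exists_erase (P.sub_up.1 hu.2.2) h1
        (by have := P.dim _ hu.1; omega)
      rw [dq_single_apx _ _ _ {s} (fun x => by
        rw [Finset.mem_singleton]; exact ⟨fun e => e ▸ a0, h2 x⟩), Finset.sum_singleton,
        Finset.insert_erase hs, P.zz_face hv k] at st
      have c' : (τ.erase v).card = n := by rw [Finset.card_erase_of_mem hv]; omega
      have := ih _ c' (hτ.subset (by simp)) (t.erase s)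
        ⟨hu.1, hu.2.1, P.sub_up.2 k.subset⟩ (cu.trans c'.symm)
      have e1 := eps_mul_self (col := col') s (t.erase s)
      have e2 := eps_mul_self (col := col) v (τ.erase v)
      calc _ = (eps col' s (t.erase s) * P.g τ t) * (eps col' s (t.erase s) * P.g τ t) := by
            rw [mul_mul_mul_comm, e1, one_mul]
        _ = 1 := by rw [st, mul_mul_mul_comm, e2, this, one_mul]
    · rw [dq_single_apx _ _ _ {s, s'} (fun x => by
        rw [Finset.mem_insert, Finset.mem_singleton]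
        exact ⟨fun e => e.elim (fun e => e ▸ a0) fun e => e ▸ h4, h5 x⟩), Finset.sum_pair h3.symm,
        Finset.insert_erase hs, P.zz_int fun v hv k => Finset.notMem_erase v τ (by
          rw [← k, h1]; exact hv)] at st
      have := ihm _ (by
        rw [Finset.sum_insert h4.2.1, ← h, ← Finset.add_sum_erase _ _ hs]; omega) _
        (Apx.mem h4 hu) (by rw [Finset.card_insert_of_notMem h4.2.1]; omega) rfl
      have e1 := eps_mul_self (col := col') s (t.erase s)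
      have e2 := eps_mul_self (col := col') s' (t.erase s)
      calc _ = (eps col' s (t.erase s) * P.g τ t) * (eps col' s (t.erase s) * P.g τ t) := by
            rw [mul_mul_mul_comm, e1, one_mul]
        _ = 1 := by
            rw [eq_neg_of_add_eq_zero_left st, neg_mul_neg, mul_mul_mul_comm, e2, this, one_mul]

theorem fu_eq (τ : Finset S) : fu P.car (fun t => P.g (cr P.car t) t) τ = P.g τ := by
  funext t
  unfold fu
  split_ifs with h
  · exact congrArg (fun x => P.g x t) h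
  · exact (by_contra fun e => h (P.g_cr (Ne.symm e)))

theorem top1 {τ : Finset S} (hτ : Γ.IsClique (τ : Set S)) {t0 : Finset S'}
    (h : t0 ∈ Q Γ' (P.up τ) ∅) : Top (dq Γ' col' (P.up τ)) (pe (P.g τ)) (Sp (Q Γ' (P.up τ) t0)) := by
  obtain ⟨t, ht, c⟩ := P.full' hτ h
  exact ⟨single t (P.g τ t), single_mem ht _, dq_no_apx (P.no_apx ht c) _, by
    rw [pe_single, P.unit _ τ rfl hτ t ⟨ht.1, Finset.empty_subset _, ht.2.2⟩ c]⟩

theorem cr_mono {t u : Finset S'} (h : t ⊆ u) : cr P.car t ⊆ cr P.car u :=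
  Finset.biUnion_subset_biUnion_of_subset_left _ h

theorem car_sub {t : Finset S'} {a : S'} (h : a ∈ t) : P.car a ⊆ cr P.car t :=
  Finset.subset_biUnion_of_mem P.car h

theorem mem_bd {τ : Finset S} (hn : τ.Nonempty) {t t0 : Finset S'} :
    t ∈ Q Γ' ((P.up τ).filter fun a => P.car a ≠ τ) t0 ↔ t ∈ Q Γ' (P.up τ) t0 ∧ cr P.car t ≠ τ := by
  constructor
  · rintro ⟨h1, h2, h3⟩
    refine ⟨⟨h1, h2, h3.trans (Finset.filter_subset _ _)⟩, fun e => ?_⟩
    rcases t.eq_empty_or_nonempty with rfl | ht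
    · exact hn.ne_empty e.symm
    · obtain ⟨a, ha, k⟩ := P.nest t h1 ht
      exact (Finset.mem_filter.1 (h3 ha)).2 (k.trans e)
  · rintro ⟨⟨h1, h2, h3⟩, e⟩
    exact ⟨h1, h2, fun a ha => Finset.mem_filter.2 ⟨h3 ha, fun k =>
      e (Finset.Subset.antisymm (P.sub_up.1 h3) (k ▸ P.car_sub ha))⟩⟩

theorem zz_eq {τ : Finset S} {a b : Finset S' →₀ ℤ}
    (h : ∀ t ∈ Q Γ' (P.up τ) ∅, cr P.car t ≠ τ → a t = b t) : P.zz τ a = P.zz τ b := by
  rw [zz_apply, zz_apply]
  refine Finset.sum_congr rfl fun v hv => ?_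
  rw [pe_eq fun t ht => h t ?_ fun e => ?_]
  · have := (P.g_sup ht).1
    exact ⟨this.1, this.2.1, this.2.2.trans (P.up_mono (Finset.erase_subset _ _))⟩
  · exact Finset.notMem_erase v τ (by rw [← P.g_cr ht, e]; exact hv)

theorem ex {τ : Finset S} (hτ : Γ.IsClique (τ : Set S)) {t0 : Finset S'}
    (h : t0 ∈ Q Γ' (P.up τ) ∅) :
    Ex (dq Γ' col' (P.up τ)) (pe (P.g τ)) (Sp (Q Γ' (P.up τ) t0 ∩ {t | cr P.car t = τ})) := by
  by_cases e : cr P.car t0 = τ
  · have k : ∀ t ∈ Q Γ' (P.up τ) t0, cr P.car t = τ := fun t ht =>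
      Finset.Subset.antisymm (P.sub_up.1 ht.2.2) (e ▸ P.cr_mono ht.2.1)
    rw [Set.inter_eq_left.2 (show Q Γ' (P.up τ) t0 ⊆ {t | cr P.car t = τ} from k)]
    refine P.b1 τ hτ t0 h _ (fun a ha => ?_) (P.top1 hτ h)
    rw [P.stokes _ τ rfl hτ, P.zz_eq (b := 0) fun t _ c => ?_, map_zero]
    exact by_contra fun c' => c (k t (mem_Sp.1 ha t c'))
  have hn : τ.Nonempty := Finset.nonempty_iff_ne_empty.2 fun c =>
    e (Finset.subset_empty.1 (c ▸ P.sub_up.1 h.2.2) |>.trans c.symm)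
  intro b hb hd hs
  set W := (P.up τ).filter fun a => P.car a ≠ τ with hW
  have hWU : W ⊆ P.up τ := Finset.filter_subset _ _
  have hQ : Q Γ' W t0 ⊆ Q Γ' (P.up τ) t0 := fun t ht => ((P.mem_bd hn).1 ht).1
  obtain ⟨a, ha, rfl⟩ := P.b0 τ hτ t0 h e b (Sp_mono Set.inter_subset_left hb) hd rfl
  have z0 : ∀ f, P.zz τ (dq Γ' col' W f) = 0 := fun f => by
    rw [P.zz_eq (b := dq Γ' col' (P.up τ) f) fun t ht c =>
      dq_restrict hWU f ((P.mem_bd hn).2 ⟨ht, c⟩).2.2, ← P.stokes _ τ rfl hτ, dq_dq P.hc', map_zero]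
  have rr : ∀ t ∈ Q Γ' W ∅, rs (Q Γ' W t0) a t = a t := fun t ht => by
    by_cases c : t ∈ Q Γ' W t0
    · exact rs_of_mem a c
    · rw [rs_of_notMem a c]
      exact by_contra fun c' => c ⟨ht.1, (mem_Sp.1 ha t (Ne.symm c')).2.1, ht.2.2⟩
  obtain ⟨f, hf, ef⟩ := P.b2 τ hτ t0 h e (P.zz τ) (fun f _ => z0 f) (by
      obtain ⟨v, hv, hv'⟩ := Finset.exists_of_ssubset
        (Finset.ssubset_iff_subset_ne.2 ⟨P.sub_up.1 h.2.2, e⟩)
      have hc : Γ.IsClique (τ.erase v : Finset S) := hτ.subset (by simp)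
      obtain ⟨t, ht, c⟩ := P.full' hc (t0 := t0) ⟨h.1, h.2.1,
        P.sub_up.2 (Finset.subset_erase.2 ⟨P.sub_up.1 h.2.2, hv'⟩)⟩
      have k := P.cr_eq ht c
      have hm : t ∈ Q Γ' W t0 := (P.mem_bd hn).2 ⟨⟨ht.1, ht.2.1,
        ht.2.2.trans (P.up_mono (Finset.erase_subset _ _))⟩, fun c' =>
          Finset.notMem_erase v τ (by rw [← k, c']; exact hv)⟩
      refine ⟨single t (eps col v (τ.erase v) * P.g (τ.erase v) t), single_mem hm _,
        dq_no_apx (fun x hx => ?_) _, ?_⟩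
      · have := (P.mem_bd hn).1 (Apx.mem hx hm)
        refine this.2 (P.cr_eq this.1 ?_)
        rw [Finset.card_insert_of_notMem hx.2.1, c, Finset.card_erase_add_one hv]
      · rw [← mul_one (_ * _), ← smul_eq_mul, ← smul_single, map_smul, P.zz_face hv k, smul_eq_mul,
          mul_mul_mul_comm, eps_mul_self, one_mul]
        exact P.unit _ _ rfl hc t ⟨ht.1, Finset.empty_subset _, ht.2.2⟩ c)
    (rs (Q Γ' W t0) a) (rs_mem _ _) (by
      ext t
      by_contra c
      have ht := mem_Sp.1 (cl_Q W t0 _ (rs_mem _ a)) t c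
      refine c ?_
      have : dq Γ' col' W (rs (Q Γ' W t0) a) t = dq Γ' col' W a t := by
        rw [dq_apply, dq_apply, if_pos ht.1, if_pos ht.1]
        refine Finset.sum_congr rfl fun s _ => ?_
        rw [rr _ ⟨ht.1.subset (by simp), Finset.empty_subset _,
          (Finset.erase_subset _ _).trans ht.2.2⟩]
      rw [this, dq_restrict hWU a ht.2.2]
      exact by_contra fun c' => ((P.mem_bd hn).1 ht).2 (mem_Sp.1 hb t c').2)
    (by rw [P.zz_eq (b := a) fun t ht c => rr t ((P.mem_bd hn).2 ⟨ht, c⟩),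
      ← P.stokes _ τ rfl hτ, hs])
  have hf' := cl_Q (col := col') (P.up τ) t0 f (Sp_mono hQ hf)
  refine ⟨a - dq Γ' col' (P.up τ) f, mem_Sp.2 fun t ht => ?_, by
    rw [map_sub, dq_dq P.hc', sub_zero]⟩
  have h1 := mem_Sp.1 (Submodule.sub_mem _ ha hf') t ht
  refine ⟨h1, by_contra fun c => ht ?_⟩
  have h2 := (P.mem_bd hn).2 ⟨h1, c⟩
  rw [Finsupp.sub_apply, ← dq_restrict hWU f h2.2.2, ef, rs_of_mem a h2, sub_self]

/-- **the subdivision** -/
def sd : Sd Γ' col' Γ col where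
  car := P.car
  up := P.up
  σ t := P.g (cr P.car t) t
  mem_up := P.mem_up
  car_ne := P.car_ne
  clq := P.clq
  dim := P.dim
  σ_card _ _ h := (P.g_sup h).2
  top τ hτ t0 h := by
    obtain ⟨t, ht, c⟩ := P.full' hτ h
    refine ⟨t, ht, P.cr_eq ht c, ?_⟩
    rw [P.cr_eq ht c]
    exact mul_self_eq_one_iff.1 (P.unit _ τ rfl hτ t ⟨ht.1, Finset.empty_subset _, ht.2.2⟩ c)
  chain τ hτ t _ := by
    rw [fu_eq, P.stokes _ τ rfl hτ, zz_apply, dq_apply, if_pos hτ, Finset.inter_self,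
      Finset.mul_sum]
    refine Finset.sum_congr rfl fun v _ => ?_
    rw [pe_single, one_mul]
    by_cases e : cr P.car t = τ.erase v
    · rw [e, single_eq_same]; ring
    · rw [single_eq_of_ne' e, by_contra fun c => e (P.g_cr c)]; ring
  ex τ hτ t0 h := by rw [fu_eq]; exact P.ex hτ h

end Pre

end Crest.Agent.N233.Lo

end
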