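import Crest.Agent.N233.Lo.Blk
import Crest.Agent.N233.Lo.Pre

/-!
# Row 233, block Lo (helper75): the block is a subdivision of the tetrahedron
-/

set_option autoImplicit false

noncomputable section

namespace Crest.Agent.N233.Lo

open PS Crest.Agent.N255 Crest.Agent.N255.Da Crest.Agent.N255.Ch

theorem bts_sound {p : ℕ → Bool} (n : ℕ) : ∀ B, bts p n B = true → ∀ v, B.testBit v → p v = true := by
  induction n with
  | zero => intro B h v hv; rw [bts, beq_iff_eq] at h; simp [h] at hv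
  | succ n ih =>
    intro B h v hv
    by_cases e : B = 0
    · simp [e] at hv
    rw [bts, frc_eq, beq_false_of_ne e, cond_false, frc_eq, Bool.and_eq_true] at h
    by_cases c : low B = v
    · exact c ▸ h.1
    · exact ih _ h.2 v (by rw [Nat.testBit_xor, Nat.testBit_two_pow_of_ne c, Bool.xor_false, hv])

/-- the conclusion of the loop -/
def Con (f : List ℕ → Bool) (t : List ℕ) (B : ℕ) : Prop :=
  ∀ σ : Finset (Fin 116), BG.IsClique (σ : Set (Fin 116)) → (∀ s ∈ σ, B.testBit s) →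
    ∃ l : List (Fin 116), l.Nodup ∧ (∀ a, a ∈ l ↔ a ∈ σ) ∧ f (l.map Fin.val ++ t) = true

theorem lp_step {f : List ℕ → Bool} {t : List ℕ} {B : ℕ} (h0 : f t = true)
    (h : ∀ v : Fin 116, B.testBit v → Con f (v :: t) ((B &&& mk v) % 2 ^ v.val)) : Con f t B := by
  intro σ hc hB
  rcases σ.eq_empty_or_nonempty with rfl | hne
  · exact ⟨[], List.nodup_nil, by simp, h0⟩
  obtain ⟨v, hv, hm⟩ := σ.exists_max_image Fin.val hne
  obtain ⟨l, h1, h2, h3⟩ := h v (hB v hv) (σ.erase v)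
    (hc.subset (by simp)) fun s hs => by
      obtain ⟨e, hs⟩ := Finset.mem_erase.1 hs
      have l : s.val < v.val := (hm s hs).lt_of_ne (Fin.val_injective.ne e)
      have a : (mk v).testBit s = true := hc hv hs e.symm
      rw [Nat.testBit_mod_two_pow, Nat.testBit_and, hB s hs, a]
      simp [l]
  refine ⟨l ++ [v], ?_, fun a => ?_, by simpa using h3⟩
  · rw [List.nodup_append]
    refine ⟨h1, List.nodup_singleton _, fun a ha b hb => ?_⟩
    rw [List.mem_singleton.1 hb]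
    exact (Finset.mem_erase.1 ((h2 a).1 ha)).1
  · rw [List.mem_append, h2, List.mem_singleton, Finset.mem_erase]
    by_cases e : a = v <;> simp [e, hv]

theorem lp_sound {f : List ℕ → Bool} (d : ℕ) : ∀ t B, lp f d t B = true → Con f t B := by
  induction d with
  | zero =>
    intro t B h σ _ hB
    rw [lp, Bool.and_eq_true, beq_iff_eq] at h
    obtain rfl : σ = ∅ := Finset.eq_empty_of_forall_notMem fun s hs => by simpa [h.1] using hB s hs
    exact ⟨[], List.nodup_nil, by simp, h.2⟩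
  | succ d ih =>
    intro t B h
    rw [lp, frc_eq, Bool.and_eq_true] at h
    exact lp_step h.1 fun v hv => ih _ _ (bts_sound _ _ h.2 _ hv)

theorem con_all {k : ℕ} (h : k < 16) : Con (okk k) [] (MM k) := by
  by_cases e : k = 15
  · subst e
    exact lp_step chkE fun v _ => lp_sound _ _ _ (chkF v.2)
  · exact lp_sound _ _ _ (List.all_eq_true.1 chkC _ (List.mem_range.2 (by omega)))

/-- the code of a face -/
def km (τ : Finset (Fin 4)) : ℕ := ∑ t ∈ τ, 2 ^ t.val

theorem km_lt : ∀ τ, km τ < 16 := by decide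
theorem km_bit : ∀ τ (t : Fin 4), (km τ).testBit t = decide (t ∈ τ) := by decide
theorem km_inj : ∀ a b, km a = km b → a = b := by decide
theorem km_union : ∀ a b, km (a ∪ b) = km a ||| km b := by decide
theorem km_sub : ∀ a b, km a &&& km b = km a ↔ a ⊆ b := by decide
theorem pc_km : ∀ τ, pc (km τ) = τ.card := by decide
theorem bits4 : ∀ a < 16, ∀ b < 16, (∀ t : Fin 4, a.testBit t = b.testBit t) → a = b := by decide

theorem sm_eq (i : Fin 116) : sm i = km (bc i) := by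
  have := List.all_eq_true.1 chkA i (mem_R.2 i.2)
  rw [Bool.and_eq_true, Nat.blt_eq, List.all_eq_true] at this
  refine bits4 _ this.1 _ (km_lt _) fun t => ?_
  rw [km_bit, beq_iff_eq.1 (this.2 t (List.mem_range.2 t.2)), Bool.eq_iff_iff]
  simp [bc, vt, dec_eq_zero]

/-- the vertices carried by a face -/
def bu (τ : Finset (Fin 4)) : Finset (Fin 116) := Finset.univ.filter fun i => bc i ⊆ τ

theorem MM_bit (τ : Finset (Fin 4)) (i : Fin 116) : (MM (km τ)).testBit i ↔ i ∈ bu τ := by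
  have := List.all_eq_true.1 chkB _ (List.mem_range.2 (km_lt τ))
  rw [Bool.and_eq_true, List.all_eq_true] at this
  rw [beq_iff_eq.1 (this.2 i (mem_R.2 i.2)), sm_eq, beq_iff_eq, km_sub]
  simp [bu]

theorem BM_bit (τ : Finset (Fin 4)) (i : Fin 116) :
    (BM (km τ)).testBit i ↔ i ∈ (bu τ).filter fun a => bc a ≠ τ := by
  have := List.all_eq_true.1 chkD _ (List.mem_range.2 (km_lt τ))
  rw [Bool.and_eq_true, List.all_eq_true] at this
  rw [beq_iff_eq.1 (this.2 i (mem_R.2 i.2)), sm_eq, Bool.and_eq_true, beq_iff_eq, km_sub,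
    bne_iff_ne]
  simp only [bu, Finset.mem_filter, Finset.mem_univ, true_and]
  exact and_congr_right fun _ => not_congr ⟨km_inj _ _, congrArg km⟩

theorem bit_lt {A k : ℕ} (h : A < 2 ^ 116) (hk : A.testBit k) : k < 116 := by
  by_contra c
  rw [Nat.testBit_lt_two_pow (h.trans_le (Nat.pow_le_pow_right two_pos (not_lt.1 c)))] at hk
  exact Bool.false_ne_true hk

theorem MM_lt (k : ℕ) : MM k < 2 ^ 116 := Nat.mod_lt _ (by positivity)

theorem code : Code BG Fin.val mk (2 ^ 116 - 1) :=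
  ⟨Fin.val_injective, fun _ _ => Iff.rfl, fun k hk =>
    ⟨⟨k, bit_lt (Nat.sub_lt (by positivity) one_pos) hk⟩, rfl⟩⟩

theorem cm_eq {l : List (Fin 116)} {σ : Finset (Fin 116)} (h : ∀ a, a ∈ l ↔ a ∈ σ) :
    cm (l.map Fin.val) = km (cr bc σ) := by
  obtain rfl : l.toFinset = σ := by ext a; rw [List.mem_toFinset, h]
  clear h
  induction l with
  | nil => rfl
  | cons a l ih =>
    rw [List.toFinset_cons, cr, Finset.biUnion_insert, km_union, ← sm_eq]
    exact congrArg (sm a ||| ·) ih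

theorem lk_bit (M : ℕ) (l : List (Fin 116)) (k : ℕ) :
    (lk M (l.map Fin.val)).testBit k ↔ M.testBit k ∧ ∀ s ∈ l, (mk s).testBit k := by
  induction l with
  | nil => simp [lk]
  | cons a l ih =>
    rw [List.map_cons, lk, List.foldr_cons, Nat.testBit_and, Bool.and_eq_true]
    rw [lk] at ih
    rw [ih, List.forall_mem_cons]
    tauto

theorem apx_iff {U t : Finset (Fin 116)} (ht : BG.IsClique (t : Set (Fin 116))) {x : Fin 116} :
    Apx BG U t x ↔ x ∈ U ∧ ∀ s ∈ t, (mk s).testBit x := by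
  refine and_congr_right fun _ => ⟨fun h s hs => ?_, fun h => ⟨fun c => BG.irrefl (h x c), ?_⟩⟩
  · exact h.2 (by simp [hs]) (by simp) fun e => h.1 (e ▸ hs)
  · rw [Finset.coe_insert]
    exact ht.insert fun b hb _ => (show BG.Adj b x from h b hb).symm

section one
variable {τ : Finset (Fin 4)} {σ : Finset (Fin 116)} {l : List (Fin 116)}

theorem lk_apx (hσ : BG.IsClique (σ : Set (Fin 116))) (h : ∀ a, a ∈ l ↔ a ∈ σ) (x : Fin 116) :
    (lk (MM (km τ)) (l.map Fin.val)).testBit x ↔ Apx BG (bu τ) σ x := by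
  rw [lk_bit, MM_bit, apx_iff hσ]
  simp only [h]

theorem lk_sub (l : List (Fin 116)) : Sub (lk (MM (km τ)) (l.map Fin.val)) (2 ^ 116 - 1) :=
  fun k hk => by
    rw [Nat.testBit_two_pow_sub_one, decide_eq_true_iff]
    exact bit_lt (MM_lt _) ((lk_bit _ _ _).1 hk).1

theorem lk_of {U : Finset (Fin 116)} (hσ : σ ∈ Q BG U ∅) {A : ℕ}
    (h : ∀ x : Fin 116, A.testBit x ↔ Apx BG U σ x) : Lk BG U σ (S Fin.val A) :=
  ⟨hσ.1, hσ.2.2, fun a => by
    rw [mem_S, h]
    refine and_congr_right fun _ => and_congr_right fun e => ⟨fun c r hr =>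
      c (by simp) (by simp [hr]) fun e' => e (e' ▸ hr), fun c => ?_⟩
    rw [Finset.coe_insert]
    exact hσ.1.insert fun b hb _ => c b hb⟩

theorem get (hσ : σ ∈ Q BG (bu τ) ∅) : ∃ l : List (Fin 116), l.Nodup ∧ (∀ a, a ∈ l ↔ a ∈ σ) ∧
    l.length = σ.card ∧ ok (km τ) (MM (km τ)) (BM (km τ)) τ.card (l.map Fin.val) = true := by
  obtain ⟨l, h1, h2, h3⟩ := con_all (km_lt τ) σ hσ.1 fun s hs => (MM_bit τ s).2 (hσ.2.2 hs)
  refine ⟨l, h1, h2, ?_, by simpa [okk, pc_km] using h3⟩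
  rw [← List.toFinset_card_of_nodup h1]
  congr 1
  ext a; rw [List.mem_toFinset, h2]

theorem hcB : ∀ s t : Fin 116, BG.Adj s t → id s ≠ id t := fun _ _ h => h.ne

theorem facts (hσ : σ ∈ Q BG (bu τ) ∅) :
    σ.card ≤ (cr bc σ).card ∧ (σ.card < τ.card → ∃ x, Apx BG (bu τ) σ x) ∧
    (∃ A, Lk BG (bu τ) σ A ∧ Gd BG (eps id) σ A (if cr bc σ = τ then 1 else 0)) ∧
    (σ.card = τ.card → σ.Nonempty → ∃ s ∈ σ,
      (cr bc (σ.erase s) ≠ τ ∧ ∀ x, Apx BG (bu τ) (σ.erase s) x → x = s) ∨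
      (cr bc (σ.erase s) = τ ∧ ∃ s' : Fin 116, s'.val < s.val ∧ s' ≠ s ∧
        Apx BG (bu τ) (σ.erase s) s' ∧ ∀ x, Apx BG (bu τ) (σ.erase s) x → x = s ∨ x = s')) ∧
    (σ.Nonempty → ∃ a ∈ σ, bc a = cr bc σ) ∧
    (cr bc σ ≠ τ → ∃ A, Lk BG ((bu τ).filter fun a => bc a ≠ τ) σ A ∧ Gd BG (eps id) σ A 1) := by
  obtain ⟨l, h1, h2, h3, h⟩ := get hσ
  have hA := lk_apx (τ := τ) hσ.1 h2
  have hs := lk_sub (τ := τ) l
  have hl := lk_of hσ hA
  simp only [ok, frc_eq, cm_eq h2, List.length_map, h3, pc_km, Bool.and_eq_true, Bool.or_eq_true,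
    Nat.ble_eq, Nat.blt_eq, List.any_eq_true, List.mem_map, beq_iff_eq, List.isEmpty_iff,
    List.map_eq_nil_iff] at h
  obtain ⟨⟨⟨⟨⟨k1, k2⟩, k3⟩, k4⟩, k5⟩, k6⟩ := h
  have ne : σ.Nonempty → l ≠ [] := fun ⟨a, ha⟩ e => by simpa [e] using (h2 a).2 ha
  refine ⟨k1, fun c => ?_, ⟨_, hl, ?_⟩, fun c hn => ?_, fun hn => ?_, fun c => ?_⟩
  · have : lk (MM (km τ)) (l.map Fin.val) ≠ 0 := by simpa using k2.resolve_left c.not_ge
    obtain ⟨k, hk⟩ := Nat.exists_testBit_of_ne_zero this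
    obtain ⟨v, rfl⟩ := code.sur k (hs k hk)
    exact ⟨v, (hA v).1 hk⟩
  · rw [rn, rnL_eq] at k3
    have k : (bif km (cr bc σ) == km τ then 1 else 0) = if cr bc σ = τ then 1 else 0 := by
      by_cases e : cr bc σ = τ
      · simp [e]
      · rw [if_neg e, beq_false_of_ne fun c => e (km_inj _ _ c), cond_false]
    rw [k] at k3
    exact (code.runL_sound eps_mul_self _ _ _ _ σ hs hl.ok
      (k3.trans_lt (by split_ifs <;> norm_num))).mono k3
  · obtain ⟨_, ⟨s, hs', rfl⟩, k⟩ := k4.resolve_left (by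
      rintro (c' | c'); exacts [c'.ne c, ne hn c'])
    have m2 : ∀ a, a ∈ l.erase s ↔ a ∈ σ.erase s := fun a => by
      rw [h1.mem_erase_iff, h2, Finset.mem_erase]
    have cl : BG.IsClique (σ.erase s : Finset (Fin 116)) := hσ.1.subset (by simp)
    have hB := lk_apx (τ := τ) cl m2
    have hs2 := lk_sub (τ := τ) (l.erase s)
    have a0 : Apx BG (bu τ) (σ.erase s) s := ⟨hσ.2.2 ((h2 s).1 hs'), Finset.notMem_erase _ _, by
      rw [Finset.insert_erase ((h2 s).1 hs')]; exact hσ.1⟩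
    rw [flp, frc_eq, frc_eq, ← List.map_erase Fin.val_injective, cm_eq m2] at k
    generalize lk (MM (km τ)) ((l.erase s).map Fin.val) = B at k hB hs2
    refine ⟨s, (h2 s).1 hs', ?_⟩
    by_cases e : cr bc (σ.erase s) = τ
    · rw [e, beq_self_eq_true, cond_true, Bool.and_eq_true, beq_iff_eq, Nat.blt_eq] at k
      generalize low (B ^^^ 2 ^ s.val) = j at k
      have b : ∀ x, B.testBit x = ((decide (j = x)) ^^ decide (s.val = x)) := fun x => by
        have := congrArg (fun m => Nat.testBit m x) k.1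
        simp only [Nat.testBit_xor, Nat.testBit_two_pow] at this
        rw [← this]; simp
      refine .inr ⟨e, ⟨j, k.2.trans s.2⟩, k.2, fun c => k.2.ne (congrArg Fin.val c),
        (hB _).1 (by rw [b]; simp [k.2.ne']), fun x hx => ?_⟩
      have := (hB x).2 hx
      rw [b] at this
      by_cases c : s.val = x.val
      · exact .inl (Fin.ext c.symm)
      · exact .inr (Fin.ext (by simpa [c, eq_comm] using this))
    · rw [beq_false_of_ne fun c => e (km_inj _ _ c), cond_false, beq_iff_eq] at k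
      refine .inl ⟨e, fun x hx => ?_⟩
      have := (hB x).2 hx
      rw [k, Nat.testBit_two_pow, decide_eq_true_iff] at this
      exact Fin.ext this.symm
  · obtain ⟨_, ⟨a, ha, rfl⟩, k⟩ := k5.resolve_left (ne hn)
    exact ⟨a, (h2 a).1 ha, km_inj _ _ ((sm_eq a).symm.trans k)⟩
  · have k := k6.resolve_left fun e => c (km_inj _ _ e)
    rw [rn0_eq] at k
    have hσ' : σ ∈ Q BG ((bu τ).filter fun a => bc a ≠ τ) ∅ := ⟨hσ.1, hσ.2.1, fun a ha =>
      Finset.mem_filter.2 ⟨hσ.2.2 ha, fun e => c (Finset.Subset.antisymm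
        (Finset.biUnion_subset.2 fun b hb => (Finset.mem_filter.1 (hσ.2.2 hb)).2)
        (e ▸ Finset.subset_biUnion_of_mem bc ha))⟩⟩
    have hl' := lk_of hσ' (A := lk (MM (km τ)) (l.map Fin.val) &&& BM (km τ)) fun x => by
      rw [Nat.testBit_and, Bool.and_eq_true, hA, BM_bit]
      exact ⟨fun e => ⟨e.2, e.1.2⟩, fun e => ⟨⟨(Finset.mem_filter.1 e.1).1, e.2⟩, e.1⟩⟩
    exact ⟨_, hl', (code.run_sound eps_mul_self _ _ _ σ (hs.land _) hl'.ok
      (k.trans_lt (by norm_num))).mono k⟩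

end one

theorem mem_univ' {t : Finset (Fin 116)} (h : BG.IsClique (t : Set (Fin 116))) :
    t ∈ Q BG (bu Finset.univ) ∅ := ⟨h, Finset.empty_subset _, fun _ _ => by simp [bu]⟩

/-- the sign free facts about the block -/
def preB : Pre BG id (⊤ : SimpleGraph (Fin 4)) id where
  car := bc
  up := bu
  rk := Fin.val
  hc' := hcB
  hc _ _ h := h
  mem_up _ _ := by simp [bu]
  car_ne a := Finsupp.support_nonempty_iff.2 (vx_vt (mem_R.2 a.2)).ne_zero
  clq _ _ _ _ _ _ h := h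
  dim _ h := (facts (mem_univ' h)).1
  nest _ h := (facts (mem_univ' h)).2.2.2.2.1
  ext _ _ _ h := (facts h).2.1
  b0 _ _ _ h e _ hb hd _ := by
    obtain ⟨A, h1, h2⟩ := (facts h).2.2.1
    rw [if_neg e] at h2
    exact h2.ex0 h1 hcB hb hd
  b1 _ _ _ h s fd top := by
    obtain ⟨A, h1, h2⟩ := (facts h).2.2.1
    exact (h2.mono (by split_ifs <;> norm_num)).ex1 h1 hcB s fd top
  b2 _ _ _ h e s fd top := by
    obtain ⟨A, h1, h2⟩ := (facts h).2.2.2.2.2 e
    exact h2.ex1 h1 hcB s fd top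
  flip _ _ _ h := (facts h).2.2.2.1

/-- **the block facts** -/
theorem blkS : BlkS := ⟨preB.sd, rfl⟩

end Crest.Agent.N233.Lo

end
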