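import Crest.Agent.N255.Ch.Loc
import Crest.Agent.N233.PS.Gr

/-!
# Row 233 (helper91): subdivisions of coloured flag complexes, definitions

`Sd`: the flag complex of `Γ'` subdivides the flag complex of `Γ`; only cohomological facts are recorded.
-/

set_option autoImplicit false
open Finsupp

noncomputable section

namespace Crest.Agent.N233.Lo

open Crest.Agent.N255.Ch

variable {S S' K K' : Type} [DecidableEq S] [DecidableEq S'] [LinearOrder K] [LinearOrder K']

/-- the carrier of a set of vertices -/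
def cr (car : S' → Finset S) (t : Finset S') : Finset S := t.biUnion car

/-- the fundamental chain of the subdivided simplex `τ` -/
def fu (car : S' → Finset S) (σ : Finset S' → ℤ) (τ : Finset S) (t : Finset S') : ℤ :=
  if cr car t = τ then σ t else 0

/-- a subdivision: `car` the carrier, `up U` the vertices carried by `U`, `σ` the orientation of a cell
of full dimension relative to its carrier -/
structure Sd (Γ' : SimpleGraph S') (col' : S' → K') (Γ : SimpleGraph S) (col : S → K) where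
  car : S' → Finset S
  up : Finset S → Finset S'
  σ : Finset S' → ℤ
  mem_up : ∀ U a, a ∈ up U ↔ car a ⊆ U
  car_ne : ∀ a, (car a).Nonempty
  clq : ∀ t : Finset S', Γ'.IsClique (t : Set S') → Γ.IsClique (cr car t : Set S)
  dim : ∀ t : Finset S', Γ'.IsClique (t : Set S') → t.card ≤ (cr car t).card
  σ_card : ∀ t : Finset S', Γ'.IsClique (t : Set S') → σ t ≠ 0 → t.card = (cr car t).card
  top : ∀ τ : Finset S, Γ.IsClique (τ : Set S) → ∀ t0 ∈ Q Γ' (up τ) ∅,
    ∃ t ∈ Q Γ' (up τ) t0, cr car t = τ ∧ (σ t = 1 ∨ σ t = -1)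
  chain : ∀ τ : Finset S, Γ.IsClique (τ : Set S) → ∀ t ∈ Q Γ' (up τ) ∅,
    pe (fu car σ τ) (dq Γ' col' (up τ) (single t 1)) = σ t * dq Γ col τ (single (cr car t) 1) τ
  ex : ∀ τ : Finset S, Γ.IsClique (τ : Set S) → ∀ t0 ∈ Q Γ' (up τ) ∅,
    Ex (dq Γ' col' (up τ)) (pe (fu car σ τ)) (Sp (Q Γ' (up τ) t0 ∩ {t | cr car t = τ}))

/-- the graph of the block -/
def BG : SimpleGraph (Fin 116) where
  Adj i j := PS.ad i j = true
  symm := ⟨fun i j h => (PS.ad_vt (PS.mem_R.2 j.2) (PS.mem_R.2 i.2)).1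
    ((PS.ad_vt (PS.mem_R.2 i.2) (PS.mem_R.2 j.2)).2 h).symm⟩
  loopless := ⟨fun i h => (PS.vx_vt (PS.mem_R.2 i.2)).not_ad
    ((PS.ad_vt (PS.mem_R.2 i.2) (PS.mem_R.2 i.2)).2 h)⟩

/-- the carrier of a vertex of the block -/
def bc (i : Fin 116) : Finset (Fin 4) := (PS.vt i).support

/-- the facts about the block -/
def BlkS : Prop := ∃ B : Sd BG id (⊤ : SimpleGraph (Fin 4)) id, B.car = bc

end Crest.Agent.N233.Lo

end
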