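import Crest.Agent.N255.Nv.Ne
import Crest.Agent.N233.PS.Gr

/-!
# Row 233 (helper80): non-evasive reductions, finite checks in the block
-/

set_option autoImplicit false
open Set

namespace Crest.Agent.N233.Ne

open N255.Nv PS

variable {I J : Type} {R : I → I → Prop} {R' : J → J → Prop}

/-- non-evasive -/
def NV (R : I → I → Prop) (t : Set I) : Prop := ∃ m, Nev R m t

/-- removal of vertices with non-evasive links -/
inductive Red (R : I → I → Prop) : Set I → Set I → Prop
  | refl (A : Set I) : Red R A A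
  | step {A B : Set I} (v : I) : v ∈ A → NV R (Lk R A v) → Red R (A \ {v}) B → Red R A B

theorem Red.sub {A B : Set I} (h : Red R A B) : B ⊆ A := by
  induction h with
  | refl => exact Subset.rfl
  | step v _ _ _ ih => exact ih.trans sdiff_subset

theorem Red.trans {A B C : Set I} (h : Red R A B) (k : Red R B C) : Red R A C := by
  induction h with
  | refl => exact k
  | step v hv l _ ih => exact .step v hv l (ih k)

theorem Red.nv {A B : Set I} (h : Red R A B) (k : NV R B) : NV R A := by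
  induction h with
  | refl => exact k
  | step v hv l _ ih =>
    obtain ⟨m, hm⟩ := ih k
    obtain ⟨n, hn⟩ := l
    exact ⟨max m n + 1, Or.inr ⟨v, hv, hm.mono (le_max_left _ _), hn.mono (le_max_right _ _)⟩⟩

theorem Red.loc {A B : Set I} (h : Red R A B) : ∀ {A' : Set I}, A ⊆ A' →
    (∀ v ∈ A, v ∉ B → ∀ w ∈ A', R v w → w ∈ A) → Red R A' (A' \ (A \ B)) := by
  induction h with
  | refl A => intro A' _ _; simpa using Red.refl A'
  | @step A B v hv l r ih =>
    intro A' hA k
    have hB : v ∉ B := fun c => (r.sub c).2 rfl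
    refine .step v (hA hv) ?_ ?_
    · convert l using 1
      ext w
      exact ⟨fun c => ⟨⟨k v hv hB w c.1.1 c.2, c.1.2⟩, c.2⟩, fun c => ⟨⟨hA c.1.1, c.1.2⟩, c.2⟩⟩
    · convert ih (A' := A' \ {v}) (fun w c => ⟨hA c.1, c.2⟩)
        fun u hu n w hw c => ⟨k u hu.1 n w hw.1 c, hw.2⟩ using 1
      ext w
      by_cases e : w = v
      · simp [e, hv, hB]
      · simp [e]

section pull
variable {f : I → J} {t : Set I}

theorem im_diff (hf : InjOn f t) {v : I} (hv : v ∈ t) : f '' (t \ {v}) = f '' t \ {f v} := by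
  ext y
  constructor
  · rintro ⟨w, hw, rfl⟩
    exact ⟨⟨w, hw.1, rfl⟩, fun c => hw.2 (hf hw.1 hv c)⟩
  · rintro ⟨⟨w, hw, rfl⟩, e⟩
    exact ⟨w, ⟨hw, fun c => e (congrArg f c)⟩, rfl⟩

theorem im_lk (hf : InjOn f t) (hR : ∀ a ∈ t, ∀ b ∈ t, R' (f a) (f b) ↔ R a b) {v : I} (hv : v ∈ t) :
    f '' Lk R t v = Lk R' (f '' t) (f v) := by
  ext y
  constructor
  · rintro ⟨w, hw, rfl⟩
    exact ⟨⟨⟨w, hw.1.1, rfl⟩, fun c => hw.1.2 (hf hw.1.1 hv c)⟩, (hR _ hv _ hw.1.1).2 hw.2⟩
  · rintro ⟨⟨⟨w, hw, rfl⟩, e⟩, r⟩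
    exact ⟨w, ⟨⟨hw, fun c => e (congrArg f c)⟩, (hR _ hv _ hw).1 r⟩, rfl⟩

theorem nev_pull {m : ℕ} : ∀ {t : Set I}, InjOn f t → (∀ a ∈ t, ∀ b ∈ t, R' (f a) (f b) ↔ R a b) →
    Nev R' m (f '' t) → Nev R m t := by
  have one : ∀ {t : Set I}, InjOn f t → (∃ a, f '' t = {a}) → ∃ a, t = {a} := by
    rintro t hf ⟨a, e⟩
    obtain ⟨x, hx, rfl⟩ : a ∈ f '' t := e ▸ rfl
    exact ⟨x, eq_singleton_iff_unique_mem.2 ⟨hx, fun y hy =>
      hf hy hx (show f y ∈ ({f x} : Set J) from e ▸ mem_image_of_mem f hy)⟩⟩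
  induction m with
  | zero => exact fun hf _ => one hf
  | succ m ih =>
    rintro t hf hR (h | ⟨_, ⟨v, hv, rfl⟩, a, b⟩)
    · exact Or.inl (one hf h)
    rw [← im_diff hf hv] at a
    rw [← im_lk hf hR hv] at b
    exact Or.inr ⟨v, hv, ih (hf.mono sdiff_subset) (fun x hx y hy => hR x hx.1 y hy.1) a,
      ih (hf.mono fun _ c => c.1.1) (fun x hx y hy => hR x hx.1.1 y hy.1.1) b⟩

theorem red_pull {A' B' : Set J} (h : Red R' A' B') : ∀ {A : Set I}, InjOn f A →
    (∀ a ∈ A, ∀ b ∈ A, R' (f a) (f b) ↔ R a b) → f '' A = A' → Red R A (A ∩ f ⁻¹' B') := by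
  induction h with
  | refl A' =>
    rintro A _ _ rfl
    rw [inter_eq_left.2 (subset_preimage_image f A)]
    exact .refl A
  | @step A' B' u hu l r ih =>
    rintro A hf hR rfl
    obtain ⟨v, hv, rfl⟩ := hu
    obtain ⟨m, l⟩ := l
    rw [← im_lk hf hR hv] at l
    refine .step v hv ⟨m, nev_pull (hf.mono fun _ c => c.1.1) (fun x hx y hy => hR x hx.1.1 y hy.1.1) l⟩ ?_
    convert ih (hf.mono sdiff_subset) (fun x hx y hy => hR x hx.1 y hy.1) (im_diff hf hv) using 1
    ext w
    exact ⟨fun c => ⟨⟨c.1, fun e => (r.sub c.2).2 (congrArg f e)⟩, c.2⟩, fun c => ⟨c.1.1, c.2⟩⟩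

end pull

/-! ### the block -/

/-- equal or adjacent in the block -/
def Rb (i j : ℕ) : Prop := i = j ∨ ad i j = true

/-- the set of a mask -/
def Ms (A : ℕ) : Set ℕ := {i | A.testBit i = true}

theorem ad_irr (v : ℕ) : ad v v ≠ true := fun h =>
  (vx_vt (ad_lt h)).not_ad ((ad_vt (ad_lt h) (ad_lt h)).2 h)

def fdb (p : ℕ → Bool) : ℕ → ℕ → ℕ
  | 0, _ => 0
  | n + 1, B => bif B == 0 || p B.log2 then B.log2 else fdb p n (B % 2 ^ B.log2)

def rd (q : ℕ → Bool) (k : ℕ → ℕ → Bool) (A N v : ℕ) : Bool :=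
  N.testBit v && (q (A &&& mk v) && k (A ^^^ 2 ^ v) (N ^^^ 2 ^ v))

def red (q : ℕ → Bool) : ℕ → ℕ → ℕ → Bool
  | 0, _, N => N == 0
  | f + 1, A, N => N == 0 || rd q (red q f) A N (fdb (fun v => q (A &&& mk v)) 116 N)

def nq : ℕ → ℕ → Bool
  | 0, A => A == 2 ^ A.log2
  | d + 1, A => A.testBit A.log2 && red (nq d) 116 A (A % 2 ^ A.log2)

theorem ms_xor {A v : ℕ} (h : v ∈ Ms A) : Ms (A ^^^ 2 ^ v) = Ms A \ {v} := by
  ext w
  by_cases e : w = v
  · subst e; simp [Ms, show A.testBit w = true from h]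
  · simp [Ms, e, Nat.testBit_two_pow, Ne.symm e]

theorem red_sound {q : ℕ → Bool} (hq : ∀ B, q B = true → NV Rb (Ms B)) (f : ℕ) :
    ∀ A N, red q f A N = true → Ms N ⊆ Ms A → Red Rb (Ms A) (Ms A \ Ms N) := by
  have z : ∀ A N, (N == 0) = true → Red Rb (Ms A) (Ms A \ Ms N) := fun A N h => by
    rw [beq_iff_eq] at h
    subst h
    simpa [Ms] using Red.refl _
  induction f with
  | zero => exact fun A N h _ => z A N h
  | succ f ih =>
    intro A N h hs
    rw [red, Bool.or_eq_true] at h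
    refine h.elim (z A N) ?_
    generalize fdb _ _ _ = v
    simp only [rd, Bool.and_eq_true]
    rintro ⟨h1, h2, h3⟩
    have hv : v ∈ Ms A := hs h1
    refine .step v hv ?_ ?_
    · convert hq _ h2 using 1
      ext w
      simp only [Lk, Ms, mem_ofPred_eq, mem_sdiff, mem_singleton_iff, Nat.testBit_and, Bool.and_eq_true, Rb]
      exact ⟨fun h => ⟨h.1.1, h.2.resolve_left (Ne.symm h.1.2)⟩,
        fun h => ⟨⟨h.1, fun e => ad_irr v (by rw [e] at h; exact h.2)⟩, Or.inr h.2⟩⟩
    · have := ih _ _ h3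
      rw [ms_xor hv, ms_xor h1] at this
      convert this (sdiff_subset_sdiff_left hs) using 1
      ext w
      by_cases e : w = v
      · simp [e, show v ∈ Ms N from h1]
      · simp [e]

theorem nq_sound (d : ℕ) : ∀ A, nq d A = true → NV Rb (Ms A) := by
  induction d with
  | zero =>
    intro A h
    rw [nq, beq_iff_eq] at h
    refine ⟨0, A.log2, Set.ext fun b => ?_⟩
    generalize A.log2 = n at h
    simp [h, Ms, Nat.testBit_two_pow, eq_comm]
  | succ d ih =>
    intro A h
    rw [nq, Bool.and_eq_true] at h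
    refine (red_sound ih _ _ _ h.2 fun i hi => ?_).nv ⟨0, A.log2, Set.ext fun b => ?_⟩
    · simp only [Ms, mem_ofPred_eq, Nat.testBit_mod_two_pow, Bool.and_eq_true] at hi
      exact hi.2
    · simp only [Ms, mem_sdiff, mem_ofPred_eq, Nat.testBit_mod_two_pow, Bool.and_eq_true,
        decide_eq_true_eq, mem_singleton_iff]
      refine ⟨fun c => le_antisymm (not_lt.1 fun l => ?_) (not_lt.1 fun l => c.2 ⟨l, c.1⟩),
        by rintro rfl; exact ⟨h.1, fun c => lt_irrefl _ c.1⟩⟩
      rw [Nat.testBit_lt_two_pow (Nat.lt_log2_self.trans_le (Nat.pow_le_pow_right two_pos l))] at c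
      exact Bool.false_ne_true c.1

def al (f : ℕ → Bool) (n : ℕ) : Bool := Nat.rec true (fun k r => f k && r) n

theorem al_iff {f : ℕ → Bool} {n : ℕ} : al f n = true ↔ ∀ k < n, f k = true := by
  induction n with
  | zero => simp [al]
  | succ n ih =>
    rw [show al f (n + 1) = (f n && al f n) from rfl, Bool.and_eq_true, ih, Nat.forall_lt_succ_right,
      and_comm]

/-- the vertices carried by the face `x` -/
def Um (x : ℕ) : ℕ := (0xfffffffffffffffffffffffffffff000000000000000000000000001ff00000000000000000000020003e07000000000000000000000000000070000000000000000000004008c61900000000000000000000000000019000000000000000000000000006010000000000000000000000000000100000000000000000000080114a2a0000000000000000000000000002a00000000000000000000000000a020000000000000000000000000000200000000000000000000000004208000000000000000000000000000080000000000000000000000000020000000000000000000000000000000 >>> (116 * x)) % 2 ^ 116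

/-- the vertices whose carrier contains the face `x` -/
def Vm (x : ℕ) : ℕ := (0xfffffffffffffffffffff1fe60000fffffffffffffffffffff1fe601c0fffffffffffffffffffff3fe63000fffffffffffffffffffff3fe631c4fffffffffffffffffffff5fee8000fffffffffffffffffffff5fee81d0fffffffffffffffffffff7feeb400fffffffffffffffffffff7feeb5d5fffffffffffffffffffff9ff70000fffffffffffffffffffff9ff701e0fffffffffffffffffffffbff73800fffffffffffffffffffffbff739e6fffffffffffffffffffffdfffc000fffffffffffffffffffffdfffc1f8ffffffffffffffffffffffffffe00fffffffffffffffffffffffffffff >>> (116 * x)) % 2 ^ 116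

theorem chk_tab : al (fun x => al (fun i =>
    ((Um x).testBit i == al (fun t => dg (cd i) t == 0 || x.testBit t) 4) &&
    ((Vm x).testBit i == al (fun t => dg (cd i) t != 0 || !x.testBit t) 4)) 116) 16 = true := by
  decide +kernel

def dif (A B : ℕ) : ℕ := A ^^^ (A &&& B)

theorem dif_bit (A B i : ℕ) : (dif A B).testBit i = true ↔ A.testBit i = true ∧ ¬B.testBit i = true := by
  simp only [dif, Nat.testBit_xor, Nat.testBit_and]
  cases A.testBit i <;> cases B.testBit i <;> simp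

def lt4 (x y : ℕ) : Bool := x &&& y == x && x != y

def cov (x y : ℕ) : Bool := x ^^^ y == 2 ^ (x ^^^ y).log2

def rm (A N : ℕ) : Bool := red (nq 1) 13 A (A &&& N)

def chk (s C : ℕ) : Bool := al (fun r => !lt4 s r ||
  ((!cov s r || nq 2 (dif (C &&& Um r) (Um s))) && al (fun e => !lt4 s e || !lt4 e r ||
    (rm (dif (C &&& Um r) (Um e)) (Vm r) && (!cov e r || rm (dif (C &&& Um r) (Um s)) (Vm e)))) 16)) 16

def alC (s : ℕ) : ℕ → ℕ → Bool
  | 0, C => chk s C
  | n + 1, C => chk s C && al (fun b => !(C &&& Um s).testBit b || alC s n (C &&& mk b)) 116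

theorem chk_all : al (fun s => al (fun a => !(Um s &&& Vm s).testBit a || alC s 3 (mk a)) 116) 15 = true := by
  decide +kernel

theorem chk_up : al (fun r => r == 0 || nq 3 (Um r)) 16 = true := by decide +kernel

theorem alC_sound {s : ℕ} (n : ℕ) : ∀ (C : ℕ) (t : Finset ℕ), alC s n C = true → t.card ≤ n →
    (∀ b ∈ t, b < 116 ∧ (C &&& Um s).testBit b = true ∧ ∀ c ∈ t, c ≠ b → ad b c = true) →
    ∃ D, chk s D = true ∧ ∀ i, D.testBit i = true ↔ C.testBit i = true ∧ ∀ b ∈ t, ad b i = true := by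
  induction n with
  | zero =>
    intro C t h hc _
    rw [Finset.card_eq_zero.1 (Nat.le_zero.1 hc)]
    exact ⟨C, h, by simp⟩
  | succ n ih =>
    intro C t h hc k
    rw [alC, Bool.and_eq_true] at h
    rcases t.eq_empty_or_nonempty with rfl | ⟨b, hb⟩
    · exact ⟨C, h.1, by simp⟩
    have := al_iff.1 h.2 b (k b hb).1
    rw [(k b hb).2.1, Bool.not_true, Bool.false_or] at this
    obtain ⟨D, h1, h2⟩ := ih _ (t.erase b) this (by rw [Finset.card_erase_of_mem hb]; omega) fun c hc' => by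
      obtain ⟨e, hc'⟩ := Finset.mem_erase.1 hc'
      have h3 := (k c hc').2.1
      have h4 : (mk b).testBit c = true := (k b hb).2.2 c hc' e
      simp only [Nat.testBit_and, Bool.and_eq_true] at h3 ⊢
      exact ⟨(k c hc').1, ⟨⟨h3.1, h4⟩, h3.2⟩, fun d hd => (k c hc').2.2 d (Finset.mem_of_mem_erase hd)⟩
    refine ⟨D, h1, fun i => (h2 i).trans ?_⟩
    rw [Nat.testBit_and, Bool.and_eq_true, and_assoc]
    refine and_congr_right fun _ => ⟨fun c x hx => ?_, fun c => ⟨c b hb, fun x hx =>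
      c x (Finset.mem_of_mem_erase hx)⟩⟩
    by_cases e : x = b
    exacts [e ▸ c.1, c.2 x (Finset.mem_erase.2 ⟨e, hx⟩)]

theorem rm_sound {A N : ℕ} (h : rm A N = true) : Red Rb (Ms A) (Ms A \ Ms N) := by
  have e : Ms (A &&& N) = Ms A ∩ Ms N := by ext; simp [Ms]
  have := red_sound (nq_sound 1) _ _ _ h (e ▸ inter_subset_left)
  rwa [e, sdiff_self_inter] at this

/-- the mask of a face -/
def enc (g : Fin 4 → Bool) : ℕ := (g 0).toNat + 2 * (g 1).toNat + 4 * (g 2).toNat + 8 * (g 3).toNat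

theorem enc_lt : ∀ g, enc g < 16 := by decide

theorem enc_bit : ∀ g (t : Fin 4), (enc g).testBit t = g t := by decide

theorem enc_lt4 : ∀ g g' : Fin 4 → Bool, (∀ t, g t = true → g' t = true) → g ≠ g' →
    lt4 (enc g) (enc g') = true ∧ enc g < 15 := by decide

theorem enc_cov : ∀ (g g' : Fin 4 → Bool) (u : Fin 4), (∀ t, t ≠ u → g t = g' t) → g ≠ g' →
    cov (enc g) (enc g') = true := by decide

theorem enc_ne : ∀ (g : Fin 4 → Bool) (u : Fin 4), g u = true → enc g ≠ 0 := by decide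

theorem um_bit (g : Fin 4 → Bool) (i : ℕ) :
    (Um (enc g)).testBit i = true ↔ i < 116 ∧ ∀ t, vt i t ≠ 0 → g t = true := by
  by_cases hi : i < 116
  · have := al_iff.1 (al_iff.1 chk_tab _ (enc_lt g)) i hi
    rw [Bool.and_eq_true, beq_iff_eq] at this
    rw [this.1, al_iff]
    simp only [hi, true_and, vt, ne_eq, dec_eq_zero, ← enc_bit, Bool.or_eq_true, beq_iff_eq]
    exact ⟨fun h t n => (h t t.2).resolve_left n, fun h t l => or_iff_not_imp_left.2 (h ⟨t, l⟩)⟩
  · rw [Um, Nat.testBit_mod_two_pow, decide_eq_false hi, Bool.false_and]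
    exact ⟨fun h => (Bool.false_ne_true h).elim, fun h => (hi h.1).elim⟩

theorem vm_bit (g : Fin 4 → Bool) {i : ℕ} (hi : i < 116) :
    (Vm (enc g)).testBit i = true ↔ ∀ t, g t = true → vt i t ≠ 0 := by
  have := al_iff.1 (al_iff.1 chk_tab _ (enc_lt g)) i hi
  rw [Bool.and_eq_true, beq_iff_eq, beq_iff_eq] at this
  rw [this.2, al_iff]
  simp only [vt, ne_eq, dec_eq_zero, ← enc_bit, Bool.or_eq_true, bne_iff_ne, Bool.not_eq_true']
  exact ⟨fun h t n => (h t t.2).resolve_right (by simp [n]),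
    fun h t l => or_iff_not_imp_right.2 fun n => h ⟨t, l⟩ (by simpa using n)⟩

theorem vt_inj {i j : ℕ} (hi : i ∈ PS.R) (hj : j ∈ PS.R) (e : vt i = vt j) : i = j := by
  by_contra n
  have h1 := le_vt hi hj n
  have h2 := vx_vt hj
  rw [e, Vx.eq_def] at *
  rw [h2, phi4, phi5] at h1
  linarith [Real.goldenRatio_pos]

end Crest.Agent.N233.Ne
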