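import Crest.Agent.N255.En.Defs
import Crest.Agent.N233.PS.Gr

/-!
# Row 233 (helper60): the walls of the subdivision `ps X`

A group acting on a graph `Γ` acts on the subdivision `ps Γ.IsClique`; a wall system `w : Wl ι S` gives the
wall system `w.ps` with `T* e = {a | car a ⊆ T e}` and `B* e = {a | car a meets B e}`.
-/

set_option autoImplicit false
open Set

noncomputable section

namespace Crest.Agent.N233.Lo

open PS Crest.Agent.N255 Crest.Agent.N255.En Crest.Agent.N255.Nv Crest.Agent.N255.Pt Crest.Agent.N255.Lv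

/-- the action preserves the graph -/
class Inv (G : Type) {S : Type} [SMul G S] (Γ : SimpleGraph S) : Prop where
  adj_smul : ∀ (f : G) a b, Γ.Adj (f • a) (f • b) ↔ Γ.Adj a b

section act
variable {G S : Type} [Group G] [MulAction G S] {Γ : SimpleGraph S}

theorem Inv.nd [Inv G Γ] (f : G) : Nd Γ.IsClique Γ.IsClique fun a => f • a := fun s hs =>
  ⟨(MulAction.injective f).injOn, by
    rintro _ ⟨a, ha, rfl⟩ _ ⟨b, hb, rfl⟩ h
    exact (Inv.adj_smul f a b).2 (hs ha hb fun e => h (congrArg _ e))⟩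

theorem Inv.cl_smul [Inv G Γ] (f : G) (a b : S) : Cl Γ (f • a) (f • b) ↔ Cl Γ a b :=
  or_congr (MulAction.injective f).eq_iff (Inv.adj_smul f a b)

/-- the action on the vertices of the subdivision -/
instance psAct [Inv G Γ] : MulAction G (PV Γ.IsClique) where
  smul f := pm (Inv.nd f)
  one_smul a := (pm_congr _ Nd.id fun v _ => one_smul G v).trans (pm_id a)
  mul_smul f g a := (pm_congr _ ((Inv.nd f).comp (Inv.nd g)) fun v _ => mul_smul f g v).trans
    (pm_comp (Inv.nd f) (Inv.nd g) a)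

theorem smul_def [Inv G Γ] (f : G) (a : PV Γ.IsClique) : f • a = pm (Inv.nd f) a := rfl

theorem car_smul [Inv G Γ] (f : G) (a : PV Γ.IsClique) : car (f • a) = (fun v => f • v) '' car a :=
  car_pm _ a

theorem mem_car_smul [Inv G Γ] (f : G) (a : PV Γ.IsClique) (v : S) : f • v ∈ car (f • a) ↔ v ∈ car a := by
  rw [car_smul]
  exact (MulAction.injective f).mem_set_image

instance psInv [Inv G Γ] : Inv G (ps Γ.IsClique) :=
  ⟨fun f a b => ⟨fun h => by simpa only [← smul_def, inv_smul_smul] using pm_adj (Inv.nd f⁻¹) h,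
    pm_adj (Inv.nd f)⟩⟩

end act

section basic
variable {S : Type} {Γ : SimpleGraph S}

theorem cq_iff {s : Set S} : Cq (Cl Γ) s ↔ Γ.IsClique s :=
  ⟨fun h a ha b hb e => (h a ha b hb).resolve_left e, fun h a ha b hb => by
    by_cases e : a = b
    exacts [.inl e, .inr (h ha hb e)]⟩

/-- carriers of adjacent vertices span a clique -/
theorem cl_car {a b : PV Γ.IsClique} (h : Cl (ps Γ.IsClique) a b) {u v : S} (hu : u ∈ car a)
    (hv : v ∈ car b) : Cl Γ u v := by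
  rcases h with rfl | h
  · exact cq_iff.2 (car_face a) u hu v hv
  · exact cq_iff.2 h.1 u (.inl hu) v (.inr hv)

theorem finite_up {X : Set S → Prop} {A : Set S} (hA : A.Finite) : {a : PV X | car a ⊆ A}.Finite := by
  have := hA.to_subtype
  refine Set.Finite.of_injOn (f := fun a (v : A) => a.1 v) (t := univ) (mapsTo_univ _ _)
    (fun a ha b hb e => PV.ext (Finsupp.ext fun v => ?_)) finite_univ
  by_cases hv : v ∈ A
  · exact congrFun e ⟨v, hv⟩
  · rw [not_not.1 (mt (fun h => ha (mem_car.2 h)) hv), not_not.1 (mt (fun h => hb (mem_car.2 h)) hv)]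

end basic

/-- half links in the subdivision are non-evasive (helper80) -/
def NevS : Prop :=
  ∀ (S : Type) (Γ : SimpleGraph S), Cx Γ.IsClique → ∀ P Q : Set S, P.Finite → Disjoint P Q →
    (∀ s : Finset S, s.Nonempty → ↑s ⊆ P → Cq (Cl Γ) s →
      ∃ m, Nev (Cl Γ) m {b | b ∈ Q ∧ ∀ a ∈ s, Cl Γ a b}) →
    ∀ s : Finset (PV Γ.IsClique), s.Nonempty → (∀ a ∈ s, car a ⊆ P) → Cq (Cl (ps Γ.IsClique)) s →
      ∃ m, Nev (Cl (ps Γ.IsClique)) m
        {b | (car b ⊆ P ∪ Q ∧ (car b ∩ Q).Nonempty) ∧ ∀ a ∈ s, Cl (ps Γ.IsClique) a b}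

variable {ι S : Type} [DecidableEq ι] [MulAction (FreeGroup ι) S]

omit [DecidableEq ι] in
/-- finitely many orbits: the depth of the decision trees is bounded -/
theorem nev_unif [Finite ι] {Γ : SimpleGraph S} [Inv (FreeGroup ι) Γ] {T B : Ed ι → Set S}
    (hT : ∀ (f : FreeGroup ι) e a, f • a ∈ T (f • e) ↔ a ∈ T e)
    (hB : ∀ (f : FreeGroup ι) e a, f • a ∈ B (f • e) ↔ a ∈ B e) (hf : ∀ e, (T e).Finite)
    (h : ∀ e (s : Finset S), s.Nonempty → ↑s ⊆ T e → Cq (Cl Γ) s →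
      ∃ m, Nev (Cl Γ) m {b | b ∈ B e ∧ ∀ a ∈ s, Cl Γ a b}) :
    ∃ m, ∀ e (s : Finset S), s.Nonempty → ↑s ⊆ T e → Cq (Cl Γ) s →
      Nev (Cl Γ) m {b | b ∈ B e ∧ ∀ a ∈ s, Cl Γ a b} := by
  classical
  choose! m hm using h
  have fin : (⋃ k : ι × Bool, m ⟨1, k⟩ '' {s : Finset S | ↑s ⊆ T ⟨1, k⟩}).Finite :=
    finite_iUnion fun k => (Set.Finite.of_injOn (f := fun s : Finset S => (s : Set S))
      (t := {t | t ⊆ T ⟨1, k⟩}) (fun _ h => h) Finset.coe_injective.injOn (hf _).finite_subsets).image _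
  obtain ⟨M, hM⟩ := fin.bddAbove
  refine ⟨M, fun e s hne hs hq => ?_⟩
  obtain ⟨g, k⟩ := e
  have he : (⟨g, k⟩ : Ed ι) = g • (⟨1, k⟩ : Ed ι) := L.ext (mul_one g).symm rfl
  have h1 : ↑(s.image fun a => g⁻¹ • a) ⊆ T ⟨1, k⟩ := by
    rw [Finset.coe_image]
    rintro _ ⟨a, ha, rfl⟩
    rw [← hT g, smul_inv_smul, ← he]
    exact hs ha
  have h2 := (hm ⟨1, k⟩ _ (hne.image _) h1 (by
    rw [Finset.coe_image]
    rintro _ ⟨a, ha, rfl⟩ _ ⟨b, hb, rfl⟩
    exact (Inv.cl_smul _ a b).2 (hq a ha b hb))).mono (hM (mem_iUnion.2 ⟨k, _, h1, rfl⟩))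
  convert h2.image (MulAction.injective g) (Inv.cl_smul g) using 1
  ext b
  obtain ⟨b, rfl⟩ := MulAction.surjective g b
  rw [(MulAction.injective g).mem_set_image, mem_ofPred_eq, mem_ofPred_eq, he, hB,
    Finset.forall_mem_image]
  refine and_congr_right fun _ => forall_congr' fun a => imp_congr_right fun _ => ?_
  rw [← Inv.cl_smul g (g⁻¹ • a), smul_inv_smul]

instance wlInv (w : Wl ι S) : Inv (FreeGroup ι) w.Γ := ⟨w.adj_smul⟩

end Crest.Agent.N233.Lo

namespace Crest.Agent.N255.En.Wl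

open Crest.Agent.N233 Crest.Agent.N233.PS Crest.Agent.N233.Lo Nv Pt Lv

variable {ι S : Type} [DecidableEq ι] [MulAction (FreeGroup ι) S] (w : Wl ι S)

theorem cx : Cx w.Γ.IsClique :=
  cx_of_card (fun h1 h2 => h2.subset h1) fun s hs => w.dim s (cq_iff.2 hs)

/-- a clique meeting `B e` lies in `T e ∪ B e` -/
theorem car_sub {e : Ed ι} {a : PV w.Γ.IsClique} (h : (car a ∩ w.B e).Nonempty) :
    car a ⊆ w.T e ∪ w.B e := fun v hv => by
  obtain ⟨u, hu, hu'⟩ := h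
  rcases w.tri e v with h | h | h
  exacts [.inl h, .inr h, (w.BB e u v hu' h (cl_car (Cl.rfl a) hu hv)).elim]

/-- **the walls of the subdivision** -/
def ps [Finite ι] [hN : Fact NevS] : Wl ι (PV w.Γ.IsClique) :=
  have hT : ∀ (f : FreeGroup ι) e (a : PV w.Γ.IsClique),
      f • a ∈ {a | car a ⊆ w.T (f • e)} ↔ a ∈ {a | car a ⊆ w.T e} := fun f e a => by
    simp only [mem_ofPred_eq, car_smul, image_subset_iff]
    exact forall₂_congr fun v _ => w.T_smul f e v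
  have hB : ∀ (f : FreeGroup ι) e (a : PV w.Γ.IsClique),
      f • a ∈ {a | (car a ∩ w.B (f • e)).Nonempty} ↔ a ∈ {a | (car a ∩ w.B e).Nonempty} := fun f e a => by
    simp only [mem_ofPred_eq, car_smul, image_inter_nonempty_iff]
    exact exists_congr fun v => and_congr_right fun _ => w.B_smul f e v
  { Γ := PS.ps w.Γ.IsClique
    adj_smul := Inv.adj_smul
    dim := fun s hs => card_le w.cx s (cq_iff.1 hs)
    T := fun e => {a | car a ⊆ w.T e}
    B := fun e => {a | (car a ∩ w.B e).Nonempty}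
    T_rev := fun e => by rw [w.T_rev]
    T_smul := hT
    B_smul := hB
    T_fin := fun e => finite_up (w.T_fin e)
    T_ne := fun e => by
      obtain ⟨v, hv⟩ := w.T_ne e
      exact ⟨corner v (w.Γ.isClique_singleton v), by rwa [mem_ofPred_eq, car_corner, singleton_subset_iff]⟩
    tri := fun e a => by
      by_cases h : car a ⊆ w.T e
      · exact .inl h
      obtain ⟨v, hv, h'⟩ := not_subset.1 h
      exact .inr (((w.tri e v).resolve_left h').imp (fun h => ⟨v, hv, h⟩) fun h => ⟨v, hv, h⟩)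
    TB := fun e a h ⟨v, hv, h'⟩ => w.TB e v (h hv) h'
    BB := fun e a b ⟨u, hu, hu'⟩ ⟨v, hv, hv'⟩ h => w.BB e u v hu' hv' (cl_car h hu hv)
    bey := fun e e' h a ha => by
      rcases ha with ha | ⟨v, hv, h'⟩
      · obtain ⟨v, hv⟩ := car_nonempty a
        exact ⟨v, hv, w.bey e e' h (.inl (ha hv))⟩
      · exact ⟨v, hv, w.bey e e' h (.inr h')⟩
    nev := nev_unif hT hB (fun e => finite_up (w.T_fin e)) fun e s hne hs hq => by
      obtain ⟨m, hm⟩ := w.nev
      obtain ⟨m', h⟩ := hN.out S w.Γ w.cx (w.T e) (w.B e) (w.T_fin e) (disjoint_left.2 (w.TB e))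
        (fun s h1 h2 h3 => ⟨m, hm e s h1 h2 h3⟩) s hne (fun a ha => hs ha) hq
      refine ⟨m', ?_⟩
      convert h using 3
      exact and_congr_left fun _ => ⟨fun h => ⟨w.car_sub h, h⟩, fun h => h.2⟩ }

variable [Finite ι] [Fact NevS]

@[simp] theorem ps_Γ : w.ps.Γ = PS.ps w.Γ.IsClique := rfl

theorem mem_psT {e : Ed ι} {a : PV w.Γ.IsClique} : a ∈ w.ps.T e ↔ car a ⊆ w.T e := Iff.rfl

theorem mem_psB {e : Ed ι} {a : PV w.Γ.IsClique} : a ∈ w.ps.B e ↔ (car a ∩ w.B e).Nonempty := Iff.rfl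

theorem not_mem_psB {e : Ed ι} {a : PV w.Γ.IsClique} : a ∉ w.ps.B e ↔ ∀ v ∈ car a, v ∉ w.B e :=
  ⟨fun h v hv h' => h ⟨v, hv, h'⟩, fun h ⟨v, hv, h'⟩ => h v hv h'⟩

theorem mem_psMod {J : Finset (Ed ι)} {a : PV w.Γ.IsClique} : a ∈ w.ps.Mod J ↔ car a ⊆ w.Mod J :=
  ⟨fun h v hv e he h' => h e he ⟨v, hv, h'⟩, fun h e he ⟨_, hv, h'⟩ => h hv e he h'⟩

theorem psMod (J : Finset (Ed ι)) : w.ps.Mod J = {a | car a ⊆ w.Mod J} := Set.ext fun _ => w.mem_psMod

theorem psT (e : Ed ι) : w.ps.T e = {a | car a ⊆ w.T e} := rfl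

omit [Finite ι] [Fact NevS] in
theorem inv_of_eq {Γ : SimpleGraph S} (h : w.Γ = Γ) : Inv (FreeGroup ι) Γ := h ▸ wlInv w

/-- the same walls, for a graph that is propositionally equal to `w.Γ` -/
def psOf {Γ : SimpleGraph S} (h : w.Γ = Γ) [Inv (FreeGroup ι) Γ] : Wl ι (PV Γ.IsClique) where
  Γ := PS.ps Γ.IsClique
  adj_smul := Inv.adj_smul
  dim := by subst h; exact w.ps.dim
  T e := {a | car a ⊆ w.T e}
  B e := {a | (car a ∩ w.B e).Nonempty}
  T_rev := by subst h; exact w.ps.T_rev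
  T_smul := by subst h; exact w.ps.T_smul
  B_smul := by subst h; exact w.ps.B_smul
  T_fin := by subst h; exact w.ps.T_fin
  T_ne := by subst h; exact w.ps.T_ne
  tri := by subst h; exact w.ps.tri
  TB := by subst h; exact w.ps.TB
  BB := by subst h; exact w.ps.BB
  bey := by subst h; exact w.ps.bey
  nev := by subst h; exact w.ps.nev

theorem psOf_rfl : w.psOf rfl = w.ps := rfl

section of
variable {Γ : SimpleGraph S} (h : w.Γ = Γ) [Inv (FreeGroup ι) Γ]

@[simp] theorem psOf_Γ : (w.psOf h).Γ = PS.ps Γ.IsClique := rfl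

theorem mem_ofT {e : Ed ι} {a : PV Γ.IsClique} : a ∈ (w.psOf h).T e ↔ car a ⊆ w.T e := Iff.rfl

theorem mem_ofB {e : Ed ι} {a : PV Γ.IsClique} : a ∈ (w.psOf h).B e ↔ (car a ∩ w.B e).Nonempty := Iff.rfl

theorem not_mem_ofB {e : Ed ι} {a : PV Γ.IsClique} : a ∉ (w.psOf h).B e ↔ ∀ v ∈ car a, v ∉ w.B e :=
  ⟨fun h v hv h' => h ⟨v, hv, h'⟩, fun h ⟨v, hv, h'⟩ => h v hv h'⟩

theorem mem_ofMod {J : Finset (Ed ι)} {a : PV Γ.IsClique} : a ∈ (w.psOf h).Mod J ↔ car a ⊆ w.Mod J :=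
  ⟨fun h v hv e he h' => h e he ⟨v, hv, h'⟩, fun h e he ⟨_, hv, h'⟩ => h hv e he h'⟩

end of

end Crest.Agent.N255.En.Wl

end
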