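import Crest.Agent.N233.Lo.Nev
import Crest.Agent.N233.Lo.Wl

/-!
# Row 233 (helper80): `NevS` holds
-/

set_option autoImplicit false
open Set

namespace Crest.Agent.N233.Lo

open PS

theorem nevS : NevS := fun S Γ hX P Q hP hd k s hs hs' q => by
  have c : (ps Γ.IsClique).IsClique s := fun a ha b hb e => (q a ha b hb).resolve_left e
  obtain ⟨a, ha, t⟩ := exists_top hX c s.finite_toSet hs
  refine (Ne.Tp.half hX ⟨ha, t, c⟩ hP hd (hs' a ha)
    (k a.1.support (car_nonempty a) (hs' a ha) fun x hx y hy => Ne.rc_car a hx hy)).imp fun m l => ?_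
  refine (congrArg (N255.Nv.Nev _ m) (Set.ext fun b => ?_)).mpr l
  constructor
  · rintro ⟨⟨h, y, hy, hq⟩, r⟩
    exact ⟨fun x hx => (r x hx).resolve_left fun e => disjoint_left.1 hd (hs' x hx (e ▸ hy)) hq, h,
      fun l => disjoint_left.1 hd (l hy) hq⟩
  · rintro ⟨h1, h2, h3⟩
    obtain ⟨y, hy, n⟩ := not_subset.1 h3
    exact ⟨⟨h2, y, hy, (h2 hy).resolve_left n⟩, fun x hx => Or.inr (h1 x hx)⟩

instance factNevS : Fact NevS := ⟨nevS⟩

end Crest.Agent.N233.Lo
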