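import Crest.Agent.N233.Lo.Qi
import Crest.Agent.N255.Dg.Car
import Crest.Agent.N255.Nv.Ctg

/-!
# Row 233 (helper91): periods of closed cochains on tuples over subdivided cycles (Sperner's lemma)
-/

set_option autoImplicit false
set_option linter.unusedSectionVars false
open Finsupp

noncomputable section

namespace Crest.Agent.N233.Lo

open Crest.Agent.N255 Crest.Agent.N255.Ch Crest.Agent.N255.Nv Crest.Agent.N255.Dg

variable {S S' K K' : Type} [DecidableEq S] [DecidableEq S'] [LinearOrder K] [LinearOrder K']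

open Classical in
/-- a function on the cliques of `U` as a cochain -/
def ct (Γ : SimpleGraph S) (U : Finset S) (g : Finset S → ℤ) : Finset S →₀ ℤ :=
  onFinset U.powerset (fun t => if t ∈ Q Γ U ∅ then g t else 0) fun t h =>
    Finset.mem_powerset.2 (by by_contra n; exact h (if_neg fun m => n m.2.2))

section ct
variable {Γ : SimpleGraph S} {col : S → K} {U : Finset S}

theorem ct_of_mem (g : Finset S → ℤ) {t : Finset S} (h : t ∈ Q Γ U ∅) : ct Γ U g t = g t := if_pos h

theorem ct_mem (g : Finset S → ℤ) : ct Γ U g ∈ Sp (Q Γ U ∅) :=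
  mem_Sp.2 fun _ h => by_contra fun n => h (if_neg n)

theorem pe_ct {z : Finset S → ℤ} (h : ∀ t, z t ≠ 0 → t ∈ Q Γ U ∅) (g : Finset S → ℤ) :
    pe z (ct Γ U g) = ∑ t ∈ U.powerset, z t * g t := by
  rw [linearCombination_apply, sum_of_support_subset _
    (show (ct Γ U g).support ⊆ U.powerset from support_onFinset_subset) _ (by simp)]
  refine Finset.sum_congr rfl fun t _ => ?_
  by_cases e : z t = 0
  · simp [e]
  · rw [ct_of_mem g (h t e), smul_eq_mul, mul_comm]

theorem dq_ct (g : Finset S → ℤ) {t : Finset S} (h : t ∈ Q Γ U ∅) :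
    dq Γ col U (ct Γ U g) t = ∑ s ∈ t, eps col s (t.erase s) * g (t.erase s) := by
  rw [dq_apply, if_pos h.1, Finset.inter_eq_left.2 h.2.2]
  exact Finset.sum_congr rfl fun s _ => by rw [ct_of_mem g (Q_erase h s)]

theorem eps_er (s : S) (t : Finset S) :
    eps col s (t.erase s) = (-1) ^ (t.filter fun x => col x < col s).card := by
  rw [eps, Finset.filter_erase, Finset.erase_eq_of_notMem (by simp)]

theorem injOn_of (hc : ∀ s t, Γ.Adj s t → col s ≠ col t) {t : Finset S} (h : Γ.IsClique (t : Set S)) :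
    Set.InjOn col t := fun a ha b hb e => by_contra fun n => hc a b (h ha hb n) e

theorem tb_Δ' (hc : ∀ s t, Γ.Adj s t → col s ≠ col t) {n : ℕ} {t : Finset S}
    (h : Γ.IsClique (t : Set S)) (hn : t.card = n + 2) : tb ℤ n (Δ ℤ col (n + 1) t) =
      ∑ s ∈ t, eps col s (t.erase s) • Δ ℤ col n (t.erase s) := by
  rw [tb_Δ (injOn_of hc h) hn]
  exact Finset.sum_congr rfl fun s _ => by rw [eps_er]

variable (col) in
/-- minus the boundary -/
def mD : (Finset S →₀ ℤ) →ₗ[ℤ] (Finset S →₀ ℤ) :=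
  linearCombination ℤ fun t => -∑ s ∈ t, eps col s (t.erase s) • single (t.erase s) 1

theorem mD_eq {V : Type} [AddCommGroup V] (T : (Finset S →₀ ℤ) →ₗ[ℤ] V) (t : Finset S) :
    T (mD col (single t 1)) = -∑ s ∈ t, eps col s (t.erase s) • T (single (t.erase s) 1) := by
  simp only [mD, linearCombination_single, one_smul, map_neg, map_sum, map_smul]

theorem mD_mD (hc : ∀ s t, Γ.Adj s t → col s ≠ col t) {t : Finset S} (h : Γ.IsClique (t : Set S)) :
    mD col (mD col (single t 1)) = 0 := by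
  ext y
  have m : t ∈ Q Γ t ∅ := ⟨h, Finset.empty_subset _, subset_rfl⟩
  have := congrArg (· t) (dq_dq hc t (ct Γ t fun u => single u (1 : ℤ) y))
  simp only [dq_apply _ _ t, if_pos h, Finset.inter_self, Finsupp.zero_apply] at this
  rw [mD_eq, Finsupp.zero_apply, ← this]
  simp only [Finsupp.neg_apply, Finsupp.finsetSum_apply, Finsupp.smul_apply, smul_eq_mul,
    ← Finset.sum_neg_distrib]
  refine Finset.sum_congr rfl fun s _ => ?_
  rw [dq_ct _ (Q_erase m s), ← mul_neg, show mD col (single (t.erase s) 1) y =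
    lapply (R := ℤ) y (mD col (single (t.erase s) 1)) from rfl, mD_eq, neg_neg]
  rfl

end ct

namespace Qi

variable {Γ' : SimpleGraph S'} {col' : S' → K'} {Γ : SimpleGraph S} {col : S → K}
  (q : Qi Γ' col' Γ col)

theorem σ_empty : q.σ ∅ = 1 ∨ q.σ ∅ = -1 := by
  obtain ⟨t, ht, e, h⟩ := q.top ∅ (by simp) ∅ (empty_mem _)
  rcases t.eq_empty_or_nonempty with rfl | n
  · exact h
  · exact absurd (e ▸ q.cr_ne n) Finset.not_nonempty_empty

theorem fu_ne {τ : Finset S} {t : Finset S'} (h : fu q.car q.σ τ t ≠ 0) :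
    cr q.car t = τ ∧ q.σ t ≠ 0 := by
  by_cases e : cr q.car t = τ
  · exact ⟨e, by rwa [fu, if_pos e] at h⟩
  · exact absurd (if_neg e) h

theorem fu_mem {U τ : Finset S} (hU : τ ⊆ U) (t : Finset S') (h : fu q.car q.σ τ t ≠ 0) :
    t ∈ Q Γ' (q.up U) ∅ :=
  ⟨(q.σ_sup t (q.fu_ne h).2).1, Finset.empty_subset _, q.sub_up.2 ((q.fu_ne h).1.le.trans hU)⟩

theorem sd_ct {U τ : Finset S} (hU : τ ⊆ U) (g : Finset S' → ℤ) :
    sd q.car q.σ (ct Γ' (q.up U) g) τ = ∑ t ∈ (q.up τ).powerset, fu q.car q.σ τ t * g t := by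
  rw [sd_apply, ← pe_ct (q.fu_mem subset_rfl)]
  refine (pe_congr 1 fun t h => ?_).trans (one_mul _)
  rw [one_mul, ct_of_mem g (q.fu_mem hU t h), ct_of_mem g (q.fu_mem subset_rfl t h)]

/-- Stokes on one subdivided simplex -/
theorem stokes {τ : Finset S} (h : Γ.IsClique (τ : Set S)) (g : Finset S' → ℤ) :
    ∑ t ∈ (q.up τ).powerset, fu q.car q.σ τ t * ∑ s ∈ t, eps col' s (t.erase s) * g (t.erase s) =
      ∑ s ∈ τ, eps col s (τ.erase s) *
        ∑ t ∈ (q.up (τ.erase s)).powerset, fu q.car q.σ (τ.erase s) t * g t := by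
  have := congrArg (· τ) (q.sd_dq τ _ (ct_mem g))
  simp only [dq_apply _ _ τ, if_pos h, Finset.inter_self, q.sd_ct (Finset.erase_subset _ _)] at this
  rw [← this, sd_apply, ← pe_ct (q.fu_mem subset_rfl)]
  refine (pe_congr 1 fun t h => ?_).trans (one_mul _)
  rw [one_mul, ct_of_mem _ (q.fu_mem subset_rfl t h), dq_ct g (q.fu_mem subset_rfl t h)]

variable (ap : S' → S)

/-- the subdivided simplex, pushed back -/
def bk (n : ℕ) (τ : Finset S) : Tu S n →₀ ℤ :=
  ∑ t ∈ (q.up τ).powerset, fu q.car q.σ τ t • tm ℤ ap n (Δ ℤ col' n t)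

theorem lin_bk {n : ℕ} (l : (Tu S n →₀ ℤ) →ₗ[ℤ] ℤ) (τ : Finset S) : l (q.bk ap n τ) =
    ∑ t ∈ (q.up τ).powerset, fu q.car q.σ τ t * l (tm ℤ ap n (Δ ℤ col' n t)) := by
  simp only [bk, map_sum, map_smul, smul_eq_mul]

variable {ap} (hap : ∀ a, ap a ∈ q.car a)

include hap in
theorem bk_Car (n : ℕ) (τ : Finset S) : q.bk ap n τ ∈ Dg.Car ℤ (τ : Set S) n :=
  sum_mem fun t ht => Submodule.smul_mem _ _ (by
    refine mem_of (fun x hx => ?_) (Δ_Car n t)
    rw [tm_single]
    refine single_mem_supported ℤ 1 ?_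
    rintro _ ⟨i, rfl⟩
    exact (q.mem_up τ _).1 (Finset.mem_powerset.1 ht (hx ⟨i, rfl⟩)) (hap _))

variable (hc' : ∀ s t, Γ'.Adj s t → col' s ≠ col' t) (hc : ∀ s t, Γ.Adj s t → col s ≠ col t)

include hc' in
theorem tb_bk {n : ℕ} {τ : Finset S} (h : Γ.IsClique (τ : Set S)) (hn : τ.card = n + 2) :
    tb ℤ n (q.bk ap (n + 1) τ) = ∑ s ∈ τ, eps col s (τ.erase s) • q.bk ap n (τ.erase s) := by
  ext x
  have e : ∀ c : Tu S n →₀ ℤ, c x = lapply (R := ℤ) x c := fun _ => rfl
  rw [e, e, map_sum]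
  simp only [map_smul, smul_eq_mul, lin_bk]
  rw [← q.stokes h fun t => lapply (R := ℤ) x (tm ℤ ap n (Δ ℤ col' n t)), ← LinearMap.comp_apply, lin_bk]
  refine Finset.sum_congr rfl fun t _ => ?_
  by_cases z : fu q.car q.σ τ t = 0
  · rw [z, zero_mul, zero_mul]
  · have a := q.fu_ne z
    have b := q.σ_sup t a.2
    rw [LinearMap.comp_apply, tb_tm, tb_Δ' hc' b.1 (by rw [b.2, a.1, hn])]
    simp only [map_sum, map_smul, smul_eq_mul]

theorem ta_bk {τ : Finset S} (h : Γ.IsClique (τ : Set S)) (hn : τ.card = 1) :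
    ta ℤ (q.bk ap 0 τ) = q.σ ∅ := by
  obtain ⟨v, rfl⟩ := Finset.card_eq_one.1 hn
  have := q.stokes h fun t => if t = ∅ then 1 else 0
  rw [Finset.sum_singleton, Finset.erase_singleton,
    Finset.sum_eq_single (s := (q.up ∅).powerset) ∅ (fun t _ n => by rw [if_neg n, mul_zero])
      (by simp)] at this
  rw [lin_bk, show q.σ ∅ = eps col v ∅ * (fu q.car q.σ ∅ ∅ * if (∅ : Finset S') = ∅ then 1 else 0) by
    simp [eps, fu, cr_empty], ← this]
  refine Finset.sum_congr rfl fun t _ => ?_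
  by_cases z : fu q.car q.σ {v} t = 0
  · rw [z, zero_mul, zero_mul]
  · have a := q.fu_ne z
    obtain ⟨b, rfl⟩ := Finset.card_eq_one.1 ((q.σ_sup t a.2).2.trans (by rw [a.1, hn]))
    simp [ta_tm, ta_Δ, eps]

include hap hc' hc in
/-- **periods over a subdivided cycle** -/
theorem per {U : Finset S} {z : Finset S → ℤ} {n : ℕ}
    (sup : ∀ t, z t ≠ 0 → t ∈ Q Γ U ∅ ∧ t.card = n + 1)
    (cyc : ∀ t ∈ Q Γ U ∅, pe z (dq Γ col U (single t 1)) = 0) (f : Tu S n → ℤ)
    (hf : ∀ x : Tu S (n + 1), Set.range x ⊆ U → Γ.IsClique (Set.range x) → td ℤ f x = 0) :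
    ∑ t ∈ (q.up U).powerset, q.z z t * linearCombination ℤ (fun x => f (ap ∘ x)) (Δ ℤ col' n t) =
      q.σ ∅ * ∑ τ ∈ U.powerset, z τ * linearCombination ℤ f (Δ ℤ col n τ) := by
  obtain ⟨F, -, F1, F2⟩ := exists_car (k := ℤ) (mD col) Finset.card (fun τ => (τ : Set S)) {∅}
    {τ | Γ.IsClique (τ : Set S)}
    (fun n => linearCombination ℤ fun τ => q.bk ap n τ - q.σ ∅ • Δ ℤ col n τ) (fun _ => 0) 0
    (fun y _ hy => Finset.coe_nonempty.2 (Finset.nonempty_iff_ne_empty.2 hy))
    (fun y hy => by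
      rw [show mD col (single y 1) = LinearMap.id (R := ℤ) (mD col (single y 1)) from rfl, mD_eq]
      refine neg_mem (sum_mem fun s hs => Submodule.smul_mem _ _ (single_mem_supported ℤ 1 ?_))
      exact ⟨SimpleGraph.IsClique.subset (Finset.erase_subset s y) hy, Finset.erase_subset s y,
        Finset.card_erase_add_one hs⟩)
    (by rintro _ rfl; simp [mD]) (fun y hy => mD_mD hc hy)
    (fun n y _ _ => by
      rw [linearCombination_single, one_smul]
      exact sub_mem (q.bk_Car hap n y) (Submodule.smul_mem _ _ (Δ_Car n y)))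
    (fun n y hy hn => by
      rw [mD_eq]
      simp only [linearCombination_single, one_smul, map_sub, map_smul, q.tb_bk hc' hy hn,
        tb_Δ' hc hy hn, smul_sub, Finset.sum_sub_distrib, Finset.smul_sum, smul_comm (q.σ ∅)]
      abel)
    (fun y _ _ => ⟨zero_mem _, fun _ => rfl⟩)
    (fun y hy hn => by
      obtain ⟨v, rfl⟩ := Finset.card_eq_one.1 hn
      simp [q.ta_bk hy hn, ta_Δ])
    (by rintro n _ rfl h; simp at h)
  have key : ∀ τ ∈ U.powerset, z τ * linearCombination ℤ f (q.bk ap n τ) =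
      q.σ ∅ * (z τ * linearCombination ℤ f (Δ ℤ col n τ)) +
        z τ * dq Γ col U (ct Γ U fun u => linearCombination ℤ f (F n (single u 1))) τ := fun τ _ => by
    by_cases e : z τ = 0
    · simp [e]
    obtain ⟨m, hn⟩ := sup τ e
    have h := congrArg (linearCombination ℤ f) (F2 n τ m.1 hn)
    rw [lc_tb, lc_zero (fun x hx => hf x (Set.Subset.trans hx m.2.2) (m.1.subset hx))
      (F1 (n + 1) τ m.1 hn).1, map_add, ← LinearMap.comp_apply _ (F n), mD_eq, linearCombination_single,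
      one_smul, map_sub, map_smul] at h
    rw [dq_ct _ m]
    simp only [LinearMap.comp_apply, smul_eq_mul] at h
    linear_combination (-z τ) * h
  have z0 : ∑ τ ∈ U.powerset, z τ *
      dq Γ col U (ct Γ U fun u => linearCombination ℤ f (F n (single u 1))) τ = 0 := by
    rw [← pe_ct fun t h => (sup t h).1]
    refine (pe_congr 1 fun t h => ?_).trans ((one_mul _).trans
      (eq_zero_on (f := pe z ∘ₗ dq Γ col U) cyc
        (ct_mem fun u => linearCombination ℤ f (F n (single u 1)))))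
    rw [one_mul, ct_of_mem _ (sup t h).1]
  rw [Finset.mul_sum, ← add_zero (∑ _ ∈ U.powerset, _), ← z0, ← Finset.sum_add_distrib,
    ← Finset.sum_congr rfl key, ← pe_ct fun t h => (q.z_sup sup t h).1, pe_sz,
    ← pe_ct fun t h => (sup t h).1]
  refine (pe_congr 1 fun t h => ?_).trans (one_mul _)
  rw [one_mul, ct_of_mem _ (sup t h).1, q.sd_ct (sup t h).1.2.2, lin_bk]
  simp only [lc_tm]

end Qi

end Crest.Agent.N233.Lo

end
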