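import Crest.Agent.N233.Lo.Per
import Crest.Agent.N255.En.MdA
import Crest.Agent.N255.Ma.Geo

/-!
# Row 233 (helper12): pull back of the model facts to a subdivision
-/

set_option autoImplicit false
set_option linter.unusedSectionVars false
open Finsupp

noncomputable section

namespace Crest.Agent.N233.Lo

open Crest.Agent.N255 Crest.Agent.N255.Ch Crest.Agent.N255.Nv Crest.Agent.N255.Dg
open Crest.Agent.N255.En Crest.Agent.N255.Pt Crest.Agent.N255.Lv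

section pl
variable {ι S S' : Type} [DecidableEq ι] [MulAction (FreeGroup ι) S] [MulAction (FreeGroup ι) S']

/-- a simplicial approximation compatible with the walls -/
structure Pl (w' : Wl ι S') (w : Wl ι S) (ap : S' → S) : Prop where
  smul : ∀ (f : FreeGroup ι) a, ap (f • a) = f • ap a
  cl : ∀ a b, En.Cl w'.Γ a b → En.Cl w.Γ (ap a) (ap b)
  nB : ∀ e a, a ∉ w'.B e → ap a ∉ w.B e

variable {w' : Wl ι S'} {w : Wl ι S} {ap : S' → S}

theorem Pl.T (p : Pl w' w ap) {e : Ed ι} {a : S'} (h : a ∈ w'.T e) : ap a ∈ w.T e :=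
  (w.tri e _).resolve_right fun q => q.elim (p.nB e a (w'.TB e a h))
    (p.nB _ a (w'.TB _ a (w'.T_rev e ▸ h)))

theorem Pl.mod (p : Pl w' w ap) {J : Finset (Ed ι)} {a : S'} (h : a ∈ w'.Mod J) : ap a ∈ w.Mod J :=
  fun e he => p.nB e a (h e he)

end pl

/-- pull back of the quadratic labels -/
def Pl.gm {S S' : Type} [MulAction Ma.F3 S] [MulAction Ma.F3 S'] {w' : Wl (Fin 3) S'} {w : Wl (Fin 3) S}
    {ap : S' → S} (p : Pl w' w ap) {M : En.Md w} (L : Ma.Gm w M) (M' : En.Md w')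
    (h : ∀ e a b, M'.mer e a b = M.mer e (ap a) (ap b)) : Ma.Gm w' M' where
  y v t i j a b := L.y v t i j (ap a) (ap b)
  ε := L.ε
  y_add v t i j a b c ha hb hc h1 h2 h3 := by
    rw [h, h]
    exact L.y_add v t i j _ _ _ (p.mod ha) (p.mod hb) (p.mod hc) (p.cl _ _ h1) (p.cl _ _ h2) (p.cl _ _ h3)
  y_wall v t i j s a b ha hb c := by
    rw [h, h]
    exact L.y_wall v t i j s _ _ (p.T ha) (p.T hb) (p.cl _ _ c)
  y_zero v t i j e a b o ha hb c := L.y_zero v t i j e _ _ o (p.nB _ _ ha) (p.nB _ _ hb) (p.cl _ _ c)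

variable {S S' K K' : Type} [DecidableEq S] [DecidableEq S'] [LinearOrder K] [LinearOrder K']

section per
variable {Γ : SimpleGraph S} {col : S → K} {U : Finset S} {z : Finset S → ℤ}

theorem pA_Δ1 (hc : ∀ s t, Γ.Adj s t → col s ≠ col t) (sup : ∀ t, z t ≠ 0 → t ∈ Q Γ U ∅ ∧ t.card = 2)
    (φ : S → S → ℤ) : Md.pA z U (Md.s1 col φ) =
      ∑ t ∈ U.powerset, z t * linearCombination ℤ (fun x : Tu S 1 => φ (x 0) (x 1)) (Δ ℤ col 1 t) :=
  Md.pA_congr fun t ht => by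
    obtain ⟨a, -, b, -, -, l, rfl⟩ := Md.X2 hc (Md.mem_Xn.2 (sup t ht))
    have m : StrictMono (col ∘ (![a, b] : Tu S 1)) := Fin.strictMono_iff_lt_succ.2 fun i => by
      fin_cases i; exact l
    rw [Md.s1_pair _ l, show ({a, b} : Finset S) = im (![a, b] : Tu S 1) by
      ext; simp [im, Fin.exists_fin_succ, eq_comm], Δ_im m]
    simp

theorem pA_Δ2 (hc : ∀ s t, Γ.Adj s t → col s ≠ col t) (sup : ∀ t, z t ≠ 0 → t ∈ Q Γ U ∅ ∧ t.card = 3)
    (φ : S → S → S → ℤ) : Md.pA z U (Md.s2 col φ) = ∑ t ∈ U.powerset,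
      z t * linearCombination ℤ (fun x : Tu S 2 => φ (x 0) (x 1) (x 2)) (Δ ℤ col 2 t) :=
  Md.pA_congr fun t ht => by
    obtain ⟨a, -, b, -, c, -, -, -, -, l, l', rfl⟩ := Md.X3 hc (Md.mem_Xn.2 (sup t ht))
    have m : StrictMono (col ∘ (![a, b, c] : Tu S 2)) := Fin.strictMono_iff_lt_succ.2 fun i => by
      fin_cases i; exacts [l, l']
    rw [Md.s2_tri _ l l', show ({a, b, c} : Finset S) = im (![a, b, c] : Tu S 2) by
      ext; simp [im, Fin.exists_fin_succ, eq_comm], Δ_im m]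
    simp

theorem cl_of_clq {n : ℕ} {x : Tu S n} (h : Γ.IsClique (Set.range x)) (i j : Fin (n + 1)) :
    Md.Cl Γ (x i) (x j) := or_iff_not_imp_left.2 (h ⟨i, rfl⟩ ⟨j, rfl⟩)

end per

namespace Qi
variable {Γ' : SimpleGraph S'} {col' : S' → K'} {Γ : SimpleGraph S} {col : S → K}
  (q : Qi Γ' col' Γ col) {ap : S' → S} (hap : ∀ a, ap a ∈ q.car a)
  (hc' : ∀ s t, Γ'.Adj s t → col' s ≠ col' t) (hc : ∀ s t, Γ.Adj s t → col s ≠ col t)
  {U : Finset S} {z : Finset S → ℤ}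

include hap hc' hc in
theorem per1 (sup : ∀ t, z t ≠ 0 → t ∈ Q Γ U ∅ ∧ t.card = 2)
    (cyc : ∀ t ∈ Q Γ U ∅, pe z (dq Γ col U (single t 1)) = 0) {φ : S → S → ℤ}
    (h : Md.Z1 Γ (U : Set S) φ) :
    Md.pA (q.z z) (q.up U) (Md.s1 col' fun a b => φ (ap a) (ap b)) =
      q.σ ∅ * Md.pA z U (Md.s1 col φ) := by
  rw [pA_Δ1 hc' (q.z_sup sup), pA_Δ1 hc sup]
  exact q.per hap hc' hc sup cyc (fun x => φ (x 0) (x 1)) fun x h1 h2 =>
    h.td x (Md.ct_iff.2 ⟨fun i => h1 ⟨i, rfl⟩, cl_of_clq h2⟩)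

include hap hc' hc in
theorem per2 (sup : ∀ t, z t ≠ 0 → t ∈ Q Γ U ∅ ∧ t.card = 3)
    (cyc : ∀ t ∈ Q Γ U ∅, pe z (dq Γ col U (single t 1)) = 0) {φ : S → S → S → ℤ}
    (h : Md.Z2 Γ (U : Set S) φ) :
    Md.pA (q.z z) (q.up U) (Md.s2 col' fun a b c => φ (ap a) (ap b) (ap c)) =
      q.σ ∅ * Md.pA z U (Md.s2 col φ) := by
  rw [pA_Δ2 hc' (q.z_sup sup), pA_Δ2 hc sup]
  refine q.per hap hc' hc sup cyc (fun x => φ (x 0) (x 1) (x 2)) fun x h1 h2 => ?_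
  have c := cl_of_clq h2
  have := h _ (h1 ⟨0, rfl⟩) _ (h1 ⟨1, rfl⟩) _ (h1 ⟨2, rfl⟩) _ (h1 ⟨3, rfl⟩) (c 0 1) (c 0 2) (c 0 3)
    (c 1 2) (c 1 3) (c 2 3)
  rw [td2]
  simp only [Matrix.cons_val]
  linear_combination this

theorem sd_sc (u : ℤ) (car : S' → Finset S) (σ : Finset S' → ℤ) (a : Finset S' →₀ ℤ) :
    sd car (fun t => u * σ t) a = u • sd car σ a := by
  induction a using Finsupp.induction_linear with
  | zero => simp
  | add a b ha hb => simp only [map_add, ha, hb, smul_add]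
  | single t r =>
    rw [← smul_single_one t r, map_smul, map_smul, sd_single, sd_single, smul_comm u, mul_smul]

/-- normalisation of the sign -/
def nrm : Qi Γ' col' Γ col :=
  have u := q.σ_empty
  have k : ∀ a, sd q.car (fun t => q.σ ∅ * q.σ t) a = 0 ↔ sd q.car q.σ a = 0 := fun a => by
    rw [sd_sc]; rcases u with u | u <;> simp [u]
  { q with
    σ := fun t => q.σ ∅ * q.σ t
    σ_sup := fun t h => q.σ_sup t (right_ne_zero_of_mul h)
    top := fun τ h t0 h0 => by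
      obtain ⟨t, h1, h2, h3⟩ := q.top τ h t0 h0
      exact ⟨t, h1, h2, by rcases u with u | u <;> rcases h3 with h3 | h3 <;> simp [u, h3]⟩
    sd_dq := fun U a h => by rw [sd_sc, sd_sc, q.sd_dq U a h, map_smul]
    ker := fun U t0 h0 b hb hd h => by
      simpa only [k] using q.ker U t0 h0 b hb hd ((k b).1 h) }

theorem nrm_empty : q.nrm.σ ∅ = 1 := by
  show q.σ ∅ * q.σ ∅ = 1
  rcases q.σ_empty with u | u <;> simp [u]

end Qi

variable {ι F : Type} [DecidableEq ι] [MulAction (FreeGroup ι) S] [MulAction (FreeGroup ι) S']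
  [Group F] [MulAction F (Nd ι)] [MulAction F (Ed ι)] {M : Ce.Mir S K F (Nd ι) (Ed ι)}
  {M' : Ce.Mir S' K' F (Nd ι) (Ed ι)} {L : Loc M} {w : Wl ι S} {w' : Wl ι S'}

/-- the data of a subdivided model -/
structure Sb (w' : Wl ι S') (M' : Ce.Mir S' K' F (Nd ι) (Ed ι)) {w : Wl ι S} {L : Loc M} (h : Wm w L) where
  q : Qi M'.Γ M'.col M.Γ M.col
  hs : M'.src = M.src
  ht : M'.tgt = M.tgt
  hy : M'.ty = M.ty
  hsp : ∀ n, M'.sp n = q.up (M.sp n)
  hcar : ∀ f a, q.car (M'.ρ f a) = (q.car a).image (M.ρ f)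
  hσ : ∀ f t, q.σ (t.image (M'.ρ f)) = q.σ t
  Γ : w'.Γ = M'.Γ
  T : ∀ e a, a ∈ w'.T e ↔ ↑(q.car a) ⊆ w.T e
  B : ∀ e a, a ∉ w'.B e ↔ ∀ s ∈ q.car a, s ∉ w.B e
  ap : S' → S
  hap : ∀ a, ap a ∈ q.car a
  smul : ∀ (f : FreeGroup ι) a, ap (f • a) = f • ap a

namespace Sb
variable {h : Wm w L} (s : Sb w' M' h)

/-- the local structure -/
def loc : Loc M' := locSd L s.q s.hs s.ht s.hy s.hsp s.hcar s.hσ

/-- the same with normalised sign -/
def locN : Loc M' := locSd L s.q.nrm s.hs s.ht s.hy s.hsp s.hcar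
  fun f t => congrArg (s.q.σ ∅ * ·) (s.hσ f t)

theorem pl : Pl w' w s.ap := ⟨s.smul, fun a b c => by
  rcases c with rfl | c
  · exact .rfl _
  have := s.q.clq {a, b} (by simpa using SimpleGraph.isClique_pair.2 fun _ => s.Γ ▸ c)
  rw [h.Γ]
  exact or_iff_not_imp_left.2 (this (car_sub_cr _ (by simp) (s.hap a)) (car_sub_cr _ (by simp) (s.hap b))),
  fun e a k => (s.B e a).1 k _ (s.hap a)⟩

include s in
theorem wm (L' : Loc M') (hop : L'.op = L.op) : Wm w' L' :=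
  ⟨s.Γ, s.hs.trans h.src, s.ht.trans h.tgt, hop.trans h.op,
    fun e => Set.ext fun a => by rw [s.T, h.T, s.hsp, Finset.mem_coe, s.q.mem_up, Finset.coe_subset],
    fun e a => by
      simp only [s.B, s.hsp, s.q.mem_up]
      refine ⟨fun k => ?_, fun ⟨v, h1, h2⟩ x hx => (h.B e x).2 ⟨v, h1, h2 hx⟩⟩
      obtain ⟨⟨v, _⟩, ⟨rfl, h1⟩, h2⟩ := (h.side e).sub.full (t := s.q.car a)
        (by simpa [cr] using s.q.clq {a} (by simp)) (s.q.car_ne a) fun x hx =>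
          let ⟨v, h1, h2⟩ := (h.B e x).1 (k x hx); ⟨_, ⟨rfl, h1⟩, h2⟩
      exact ⟨v, h1, h2⟩⟩

variable (m : En.Md w)

include h in
omit s in
theorem z1T (e : Ed ι) : Md.Z1 M.Γ (M.sp (M.tgt e) : Set S) (m.mer e) := fun a ha b hb c hc h1 h2 h3 =>
  have t : ∀ {a}, a ∈ (M.sp (M.tgt e) : Set S) → a ∉ w.B e := fun k => w.TB e _ (h.wall e ▸ k)
  m.mer_add e a b c (t ha) (t hb) (t hc) (h.Γ ▸ h1) (h.Γ ▸ h3) (h.Γ ▸ h2)

include h in
omit s in
theorem z2T (e : Ed ι) :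
    Md.Z2 M.Γ (M.sp (M.tgt e) : Set S) fun a b c => m.mer e a b * m.mer (rev e) b c :=
  (z1T (h := h) m e).cup (by simpa only [h.tgt, tgt_rev] using z1T (h := h) m (rev e))

/-- the number of (L3) for the subdivision -/
theorem p2_loc (e : Ed ι) : Md.p2 M' e (s.loc.ω e)
    (fun a b c => m.mer e (s.ap a) (s.ap b) * m.mer (rev e) (s.ap b) (s.ap c)) =
      s.q.σ ∅ * Md.p2 M e (L.ω e) fun a b c => m.mer e a b * m.mer (rev e) b c := by
  rw [Md.p2, s.hsp, s.ht]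
  exact s.q.per2 (φ := fun a b c => m.mer e a b * m.mer (rev e) b c) s.hap M'.col_ne M.col_ne
    (L.cω e).sup (L.cω e).cyc (z2T (h := h) m e)

theorem p2_locN (e : Ed ι) : Md.p2 M' e (s.locN.ω e)
    (fun a b c => m.mer e (s.ap a) (s.ap b) * m.mer (rev e) (s.ap b) (s.ap c)) =
      Md.p2 M e (L.ω e) fun a b c => m.mer e a b * m.mer (rev e) b c := by
  rw [Md.p2, s.hsp, s.ht]
  exact (s.q.nrm.per2 s.hap M'.col_ne M.col_ne (L.cω e).sup (L.cω e).cyc (z2T (h := h) m e)).trans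
    (by rw [s.q.nrm_empty, one_mul]; rfl)

theorem p1_locN (e : Ed ι) : Md.p1 M' e (s.locN.m e) (fun a b => m.mer e (s.ap a) (s.ap b)) =
    Md.p1 M e (L.m e) (m.mer e) := by
  rw [Md.p1, s.hsp, s.ht]
  exact (s.q.nrm.per1 s.hap M'.col_ne M.col_ne (L.cm e).sup (L.cm e).cyc (z1T (h := h) m e)).trans
    (by rw [s.q.nrm_empty, one_mul]; rfl)

/-- **the model facts of the subdivision** -/
def md (q1 : ∀ e, Md.p1 M e (L.m e) (m.mer e) = 1)
    (q2 : ∀ e, ∃ u, Md.p2 M e (L.ω e) (fun a b c => m.mer e a b * m.mer (rev e) b c) * u = 1) :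
    En.Md w' :=
  (s.wm s.locN rfl).md (fun e a b => m.mer e (s.ap a) (s.ap b))
    (fun f e a b => by rw [s.smul, s.smul, m.mer_smul])
    (fun e a b c ha hb hc h1 h2 h3 => m.mer_add e _ _ _ (s.pl.nB _ _ ha) (s.pl.nB _ _ hb) (s.pl.nB _ _ hc)
      (s.pl.cl _ _ h1) (s.pl.cl _ _ h2) (s.pl.cl _ _ h3))
    (fun e e' a b k ha hb => m.mer_zero e e' _ _ k (s.pl.nB _ _ ha) (s.pl.nB _ _ hb))
    (fun e => (s.p1_locN m e).trans (q1 e)) fun e => by rw [s.p2_locN m e]; exact q2 e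

theorem md_mer (q1 q2) (e : Ed ι) (a b : S') :
    (s.md m q1 q2).mer e a b = m.mer e (s.ap a) (s.ap b) := rfl

end Sb

end Crest.Agent.N233.Lo

end
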