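import Crest.Agent.N233.Lo.Per
import Crest.Agent.N255.Md.Mod

/-!
# Row 233 (helper91): the periods `p1`, `p2` on a subdivided mirror model
-/

set_option autoImplicit false
set_option linter.unusedSectionVars false
open Finsupp

noncomputable section

namespace Crest.Agent.N233.Lo

open Crest.Agent.N255 Crest.Agent.N255.Ch Crest.Agent.N255.Nv Crest.Agent.N255.Dg Crest.Agent.N255.Md

variable {S S' K K' : Type} [DecidableEq S] [DecidableEq S'] [LinearOrder K] [LinearOrder K']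

section srt
variable {Γ : SimpleGraph S} {col : S → K} (hc : ∀ s t, Γ.Adj s t → col s ≠ col t)
include hc

theorem s1_eq (φ : S → S → ℤ) {t : Finset S} (h : Γ.IsClique (t : Set S)) (hn : t.card = 2) :
    s1 col φ t = linearCombination ℤ (fun x : Tu S 1 => φ (x 0) (x 1)) (Δ ℤ col 1 t) := by
  obtain ⟨x, hx, rfl⟩ := exists_srt (n := 1) (injOn_of hc h) hn
  rw [Δ_im hx, linearCombination_single, one_smul, ← s1_pair φ (hx (show (0 : Fin 2) < 1 by decide))]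
  congr 1
  ext a
  simp [im, Fin.exists_fin_two, eq_comm]

theorem s2_eq (φ : S → S → S → ℤ) {t : Finset S} (h : Γ.IsClique (t : Set S)) (hn : t.card = 3) :
    s2 col φ t = linearCombination ℤ (fun x : Tu S 2 => φ (x 0) (x 1) (x 2)) (Δ ℤ col 2 t) := by
  obtain ⟨x, hx, rfl⟩ := exists_srt (n := 2) (injOn_of hc h) hn
  rw [Δ_im hx, linearCombination_single, one_smul,
    ← s2_tri φ (hx (show (0 : Fin 3) < 1 by decide)) (hx (show (1 : Fin 3) < 2 by decide))]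
  congr 1
  ext a
  simp [im, Fin.exists_fin_succ, eq_comm]

omit hc in
theorem pA_congr {z : Finset S → ℤ} {U : Finset S} {a b : Finset S → ℤ} (h : ∀ t, z t ≠ 0 → a t = b t) :
    pA z U a = ∑ t ∈ U.powerset, z t * b t :=
  Finset.sum_congr rfl fun t _ => by
    by_cases e : z t = 0
    · simp [e]
    · rw [h t e, smul_eq_mul]

omit hc in
theorem cl_of {n : ℕ} {x : Tu S n} (h : Γ.IsClique (Set.range x)) (i j : Fin (n + 1)) :
    Md.Cl Γ (x i) (x j) := by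
  by_cases e : x i = x j
  exacts [Or.inl e, Or.inr (h ⟨i, rfl⟩ ⟨j, rfl⟩ e)]

end srt

namespace Qi

variable {Γ' : SimpleGraph S'} {col' : S' → K'} {Γ : SimpleGraph S} {col : S → K}
  (q : Qi Γ' col' Γ col)

theorem σ_sq : q.σ ∅ * q.σ ∅ = 1 := by rcases q.σ_empty with e | e <;> simp [e]

theorem sd_mul (r : ℤ) (a : Finset S' →₀ ℤ) :
    sd q.car (fun t => r * q.σ t) a = r • sd q.car q.σ a := by
  induction a using Finsupp.induction_linear with
  | zero => simp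
  | add a b ha hb => simp only [map_add, smul_add, ha, hb]
  | single t c =>
    rw [← smul_single_one t c, map_smul, map_smul, sd_single, sd_single, smul_comm r c, smul_smul r]

/-- the normalised orientation -/
def nm : Qi Γ' col' Γ col where
  car := q.car
  up := q.up
  σ t := q.σ ∅ * q.σ t
  mem_up := q.mem_up
  car_ne := q.car_ne
  clq := q.clq
  σ_sup t h := q.σ_sup t (right_ne_zero_of_mul h)
  top τ h t0 h0 := by
    obtain ⟨t, ht, e, s⟩ := q.top τ h t0 h0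
    refine ⟨t, ht, e, ?_⟩
    rcases q.σ_empty with a | a <;> rcases s with s | s <;> simp [a, s]
  sd_dq U a ha := by rw [sd_mul, sd_mul, map_smul, q.sd_dq U a ha]
  ker U t0 h0 b hb hd hs := by
    rw [sd_mul] at hs
    obtain ⟨a, ha, e, d⟩ := q.ker U t0 h0 b hb hd (by
      rw [← one_smul ℤ (sd _ _ b), ← q.σ_sq, mul_smul, hs, smul_zero])
    exact ⟨a, ha, by rw [sd_mul, e, smul_zero], d⟩

@[simp] theorem nm_car : q.nm.car = q.car := rfl
@[simp] theorem nm_up : q.nm.up = q.up := rfl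
theorem nm_σ (t : Finset S') : q.nm.σ t = q.σ ∅ * q.σ t := rfl
theorem nm_empty : q.nm.σ ∅ = 1 := q.σ_sq

variable {ap : S' → S} (hap : ∀ a, ap a ∈ q.car a) (hc' : ∀ s t, Γ'.Adj s t → col' s ≠ col' t)
  (hc : ∀ s t, Γ.Adj s t → col s ≠ col t) {U : Finset S} {z : Finset S → ℤ}

include hap hc' hc

theorem pA1 (sup : ∀ t, z t ≠ 0 → t ∈ Q Γ U ∅ ∧ t.card = 2)
    (cyc : ∀ t ∈ Q Γ U ∅, pe z (dq Γ col U (single t 1)) = 0) {φ : S → S → ℤ}
    (hφ : Z1 Γ (U : Set S) φ) :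
    pA (q.z z) (q.up U) (s1 col' fun a b => φ (ap a) (ap b)) = q.σ ∅ * pA z U (s1 col φ) := by
  rw [pA_congr fun t h => s1_eq hc' _ (q.z_sup sup t h).1.1 (q.z_sup sup t h).2,
    pA_congr fun t h => s1_eq hc _ (sup t h).1.1 (sup t h).2]
  refine q.per hap hc' hc sup cyc (fun x : Tu S 1 => φ (x 0) (x 1)) fun x hx h => ?_
  have := hφ _ (hx ⟨0, rfl⟩) _ (hx ⟨1, rfl⟩) _ (hx ⟨2, rfl⟩) (cl_of h 0 1) (cl_of h 0 2) (cl_of h 1 2)
  rw [td1]
  simp only [Matrix.cons_val_zero, Matrix.cons_val_one]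
  omega

theorem pA2 (sup : ∀ t, z t ≠ 0 → t ∈ Q Γ U ∅ ∧ t.card = 3)
    (cyc : ∀ t ∈ Q Γ U ∅, pe z (dq Γ col U (single t 1)) = 0) {φ : S → S → S → ℤ}
    (hφ : Z2 Γ (U : Set S) φ) :
    pA (q.z z) (q.up U) (s2 col' fun a b c => φ (ap a) (ap b) (ap c)) =
      q.σ ∅ * pA z U (s2 col φ) := by
  rw [pA_congr fun t h => s2_eq hc' _ (q.z_sup sup t h).1.1 (q.z_sup sup t h).2,
    pA_congr fun t h => s2_eq hc _ (sup t h).1.1 (sup t h).2]
  refine q.per hap hc' hc sup cyc (fun x : Tu S 2 => φ (x 0) (x 1) (x 2)) fun x hx h => ?_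
  have := hφ _ (hx ⟨0, rfl⟩) _ (hx ⟨1, rfl⟩) _ (hx ⟨2, rfl⟩) _ (hx ⟨3, rfl⟩) (cl_of h 0 1) (cl_of h 0 2)
    (cl_of h 0 3) (cl_of h 1 2) (cl_of h 1 3) (cl_of h 2 3)
  rw [td2]
  simp only [Matrix.cons_val_zero, Matrix.cons_val_one, Matrix.cons_val]
  omega

end Qi

variable {F Nd Ed : Type} [Group F] [MulAction F Nd] [MulAction F Ed] [DecidableEq Ed]
  {M : Ce.Mir S K F Nd Ed} {M' : Ce.Mir S' K' F Nd Ed} (L : Loc M)
  (q : Qi M'.Γ M'.col M.Γ M.col) (ht : M'.tgt = M.tgt) (hsp : ∀ n, M'.sp n = q.up (M.sp n))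
  {ap : S' → S} (hap : ∀ a, ap a ∈ q.car a)

include ht hsp hap

/-- the period over the subdivided meridian -/
theorem p1_sd (e : Ed) {φ : S → S → ℤ} (hφ : Z1 M.Γ (M.sp (M.tgt e) : Set S) φ) :
    p1 M' e (q.z (L.m e)) (fun a b => φ (ap a) (ap b)) = q.σ ∅ * p1 M e (L.m e) φ := by
  rw [p1, p1, hsp, ht]
  exact q.pA1 hap M'.col_ne M.col_ne (L.tor e).m_sup (L.tor e).m_cyc hφ

/-- the period over the subdivided wall -/
theorem p2_sd (e : Ed) {φ : S → S → S → ℤ} (hφ : Z2 M.Γ (M.sp (M.tgt e) : Set S) φ) :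
    p2 M' e (q.z (L.ω e)) (fun a b c => φ (ap a) (ap b) (ap c)) = q.σ ∅ * p2 M e (L.ω e) φ := by
  rw [p2, p2, hsp, ht]
  exact q.pA2 hap M'.col_ne M.col_ne (L.tor e).ω_sup (L.tor e).ω_cyc hφ

end Crest.Agent.N233.Lo

end
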