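import Crest.Agent.N233.Lo.Mir
import Crest.Agent.N255.Lv.Tm

/-!
# Row 233 (helper86): the subdivision of a model over the tree is a model over the tree
-/

set_option autoImplicit false

noncomputable section

namespace Crest.Agent.N233.Lo

open Crest.Agent.N255 Crest.Agent.N233.PS Set Pt Lv

variable {ι S : Type} [DecidableEq ι]

theorem en_two {t t' : Pt.Nd ι} {v v' : FreeGroup ι} (n : v ≠ v') (a : En t v) (a' : En t v')
    (b : En t' v) (b' : En t' v') : ∃ e, t = tgt e ∧ t' = tgt e := by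
  have k : ∀ {t : Pt.Nd ι}, En t v → En t v' → ∃ e, t = tgt e ∧ v = e.v ∧ v' = hd e := fun {t} a a' => by
    rcases node_cases t with ⟨u, rfl⟩ | ⟨e, rfl⟩
    · exact absurd ((en_none.1 a).trans (en_none.1 a').symm) n
    rcases en_tgt.1 a with c | c <;> rcases en_tgt.1 a' with c' | c'
    · exact absurd (c.trans c'.symm) n
    · exact ⟨e, rfl, c, c'⟩
    · exact ⟨rev e, (tgt_rev e).symm, c, c'.trans (hd_rev e).symm⟩
    · exact absurd (c.trans c'.symm) n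
  obtain ⟨e, rfl, c, d⟩ := k a a'
  obtain ⟨e', rfl, c', d'⟩ := k b b'
  refine ⟨e, rfl, congrArg tgt (rev_injective (cross (e := e) (e' := rev e') ?_ ?_))⟩
  · rw [rev_v, ← d', d]; exact hs_hd e
  · rw [hd_rev, ← c', c]; exact not_hs_v e

variable [DecidableEq S] [MulAction (FreeGroup ι) S]
  {M : Ce.Mir S (Fin 4) (FreeGroup ι) (Pt.Nd ι) (Pt.Ed ι)} {w : En.Wl ι S} (Z : TM M w)

variable (M w) in
/-- `t` is the node of `a` -/
def IsNd (a : PG M.Γ) (t : Pt.Nd ι) : Prop := car a ⊆ M.sp t ∧ (t.k = none → ∀ e, ¬car a ⊆ w.T e)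

include Z

theorem sub_T {A : Set S} {e : Pt.Ed ι} : A ⊆ M.sp (tgt e) ↔ A ⊆ w.T e :=
  forall₂_congr fun a _ => Z.sp_tgt e a

theorem isNd_tgt {a : PG M.Γ} {e : Pt.Ed ι} : IsNd M w a (tgt e) ↔ car a ⊆ w.T e :=
  ⟨fun h => (sub_T Z).1 h.1, fun h => ⟨(sub_T Z).2 h, fun k => absurd k (Option.some_ne_none _)⟩⟩

theorem exists_nd (a : PG M.Γ) : ∃ t, IsNd M w a t := by
  by_cases h : ∃ e, car a ⊆ w.T e
  · exact h.elim fun e h => ⟨_, (isNd_tgt Z).2 h⟩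
  · obtain ⟨R, hR⟩ := M.root a.1.support (car_face a)
    exact ⟨R.o, fun v hv => (hR v hv).1, fun _ e k => h ⟨e, k⟩⟩

theorem IsNd.uniq {a : PG M.Γ} {t t' : Pt.Nd ι} (h : IsNd M w a t) (h' : IsNd M w a t') : t = t' := by
  obtain ⟨b, hb⟩ := car_nonempty a
  rcases node_cases t with ⟨v, rfl⟩ | ⟨e, rfl⟩ <;> rcases node_cases t' with ⟨v', rfl⟩ | ⟨e', rfl⟩
  · by_contra n
    have n' : v ≠ v' := fun e => n (e ▸ rfl)
    have k := fun c (hc : c ∈ car a) => en_two n' ((Z.sp_none _ _).1 (h.1 hb))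
      ((Z.sp_none _ _).1 (h'.1 hb)) ((Z.sp_none _ _).1 (h.1 hc)) ((Z.sp_none _ _).1 (h'.1 hc))
    obtain ⟨e, he, -⟩ := k b hb
    exact h.2 rfl e fun c hc => (Z.mem_T _ _).2 (let ⟨_, p, q⟩ := k c hc; q.trans (p.symm.trans he))
  · exact absurd ((isNd_tgt Z).1 h') (h.2 rfl e')
  · exact absurd ((isNd_tgt Z).1 h) (h'.2 rfl e)
  · exact ((Z.mem_T _ _).1 ((isNd_tgt Z).1 h hb)).symm.trans ((Z.mem_T _ _).1 ((isNd_tgt Z).1 h' hb))

/-- the node of a vertex of the subdivision -/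
def ndP (a : PG M.Γ) : Pt.Nd ι := (exists_nd Z a).choose

theorem ndP_spec (a : PG M.Γ) : IsNd M w a (ndP Z a) := (exists_nd Z a).choose_spec

theorem ndP_eq {a : PG M.Γ} {t : Pt.Nd ι} : ndP Z a = t ↔ IsNd M w a t :=
  ⟨fun h => h ▸ ndP_spec Z a, (ndP_spec Z a).uniq Z⟩

theorem ndP_smul (g : FreeGroup ι) (a : PG M.Γ) : ndP Z (psIso (M.ρ g) a) = g • ndP Z a := by
  obtain ⟨p, q⟩ := ndP_spec Z a
  refine (ndP_eq Z).2 ⟨?_, fun k e h => q k (g⁻¹ • e) fun b hb => ?_⟩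
  · rw [car_psIso, M.sp_smul, Finset.coe_image]; exact image_mono p
  · rw [← w.T_smul g, smul_inv_smul, ← Z.ρ_eq]
    exact h (by rw [car_psIso]; exact mem_image_of_mem _ hb)

theorem ndP_B (e : Pt.Ed ι) (a : PG M.Γ) : (car a ∩ w.B e).Nonempty ↔ Hd e (ndP Z a) := by
  have h := ndP_spec Z a
  rcases node_cases (ndP Z a) with ⟨v, k⟩ | ⟨e', k⟩ <;> rw [k] at h ⊢
  · refine ⟨fun ⟨b, p, q⟩ => Hd_none.2 (Z.sp_mem_A (h.1 p) q), fun p => ?_⟩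
    obtain ⟨b, hb, n⟩ := not_subset.1 (h.2 rfl e)
    exact ⟨b, hb, ((Z.A_trich e b).resolve_right fun c =>
      c.elim (Z.sp_nmem_A (Hd_none.1 p) (h.1 hb)) n)⟩
  · have u := fun b (hb : b ∈ car a) => (Z.mem_T _ _).1 ((isNd_tgt Z).1 h hb)
    obtain ⟨b, hb⟩ := car_nonempty a
    exact ⟨fun ⟨c, p, q⟩ => u c p ▸ (Z.mem_B _ _).1 q, fun p => ⟨b, hb, (Z.mem_B _ _).2 (u b hb ▸ p)⟩⟩

theorem ndP_none (v : FreeGroup ι) (a : PG M.Γ) : car a ⊆ M.sp ⟨v, none⟩ ↔ En (ndP Z a) v := by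
  have h := ndP_spec Z a
  rcases node_cases (ndP Z a) with ⟨u, k⟩ | ⟨e', k⟩ <;> rw [k] at h ⊢
  · exact ⟨fun p => en_none.2 (congrArg L.v (IsNd.uniq Z ⟨p, fun _ => h.2 rfl⟩ h)),
      fun p => en_none.1 p ▸ h.1⟩
  · have u := fun b (hb : b ∈ car a) => (Z.mem_T _ _).1 ((isNd_tgt Z).1 h hb)
    obtain ⟨b, hb⟩ := car_nonempty a
    exact ⟨fun p => u b hb ▸ (Z.sp_none _ _).1 (p hb), fun p c hc => (Z.sp_none _ _).2 (u c hc ▸ p)⟩

/-- **the subdivided model** -/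
def tmPs [MulAction (FreeGroup ι) (PG M.Γ)] (w' : En.Wl ι (PG M.Γ)) (hΓ : w'.Γ = psG M.Γ)
    (hρ : ∀ (f : FreeGroup ι) (a : PG M.Γ), psIso (M.ρ f) a = f • a)
    (hT : ∀ e a, a ∈ w'.T e ↔ car a ⊆ w.T e) (hB : ∀ e a, a ∈ w'.B e ↔ (car a ∩ w.B e).Nonempty) :
    TM (mps M) w' where
  Γ_eq := hΓ
  ρ_eq := hρ
  src_eq := Z.src_eq
  tgt_eq := Z.tgt_eq
  nd := ndP Z
  nd_smul g a := hρ g a ▸ ndP_smul Z g a
  mem_T e a := (hT e a).trans ((ndP_eq Z).trans (isNd_tgt Z)).symm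
  mem_B e a := (hB e a).trans (ndP_B Z e a)
  sp_tgt e a := mem_st.trans ((sub_T Z).trans (hT e a).symm)
  sp_none v a := mem_st.trans (ndP_none Z v a)

end Crest.Agent.N233.Lo

end
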