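import Crest.Agent.N233.Lo.Tm
import Crest.Agent.N233.Lo.Wl

/-!
# Row 233 (helper86): the subdivided model with the subdivided walls
-/

set_option autoImplicit false

noncomputable section

namespace Crest.Agent.N233.Lo

open Crest.Agent.N255 Crest.Agent.N233.PS Set Pt Lv

variable {ι S : Type} [DecidableEq ι] [DecidableEq S] [MulAction (FreeGroup ι) S] [Finite ι] [Fact NevS]
  {M : Ce.Mir S (Fin 4) (FreeGroup ι) (Pt.Nd ι) (Pt.Ed ι)} {w : En.Wl ι S}

/-- **the subdivided model** -/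
def tmP (Z : TM M w) [Inv (FreeGroup ι) M.Γ] : TM (mps M) (w.psOf Z.Γ_eq) :=
  tmPs Z _ rfl (fun f _ => pm_congr (nd_iso (M.ρ f)) (Inv.nd f) fun v _ => Z.ρ_eq f v) (fun _ _ => Iff.rfl) fun _ _ => Iff.rfl

end Crest.Agent.N233.Lo

end
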