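import Crest.Agent.N233.Lo.Defs

/-!
# Row 233 (helper91): walls and chambers of a subdivision

`Qi`: the summation map `sd` over the cells of full dimension is a quasi-isomorphism on all stars.
The facts `Tor` and `Wal` pass to the subdivision.
-/

set_option autoImplicit false
set_option linter.unusedSectionVars false
open Finsupp

noncomputable section

namespace Crest.Agent.N233.Lo

open Crest.Agent.N255.Ch

variable {S S' K K' : Type} [DecidableEq S] [DecidableEq S'] [LinearOrder K] [LinearOrder K']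

/-- summation over the cells of full dimension -/
def sd (car : S' → Finset S) (σ : Finset S' → ℤ) : (Finset S' →₀ ℤ) →ₗ[ℤ] (Finset S →₀ ℤ) :=
  linearCombination ℤ fun t => single (cr car t) (σ t)

theorem sd_single (car : S' → Finset S) (σ : Finset S' → ℤ) (t : Finset S') :
    sd car σ (single t 1) = σ t • single (cr car t) 1 := by simp [sd]

/-- the subdivided chain -/
def sz (car : S' → Finset S) (σ : Finset S' → ℤ) (z : Finset S → ℤ) (t : Finset S') : ℤ :=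
  σ t * z (cr car t)

theorem pe_sz (car : S' → Finset S) (σ : Finset S' → ℤ) (z : Finset S → ℤ) (a : Finset S' →₀ ℤ) :
    pe (sz car σ z) a = pe z (sd car σ a) := by
  induction a using Finsupp.induction_linear with
  | zero => simp
  | add a b ha hb => simp only [map_add, ha, hb]
  | single t r =>
    rw [← smul_single_one t r, map_smul, map_smul, map_smul, sd_single, map_smul]
    simp [sz]

theorem cr_empty (car : S' → Finset S) : cr car ∅ = ∅ := Finset.biUnion_empty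

theorem cr_mono (car : S' → Finset S) {t t' : Finset S'} (h : t ⊆ t') : cr car t ⊆ cr car t' :=
  Finset.biUnion_subset_biUnion_of_subset_left _ h

theorem car_sub_cr (car : S' → Finset S) {t : Finset S'} {a : S'} (h : a ∈ t) : car a ⊆ cr car t :=
  Finset.subset_biUnion_of_mem car h

/-- a subdivision, homological form -/
structure Qi (Γ' : SimpleGraph S') (col' : S' → K') (Γ : SimpleGraph S) (col : S → K) where
  car : S' → Finset S
  up : Finset S → Finset S'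
  σ : Finset S' → ℤ
  mem_up : ∀ U a, a ∈ up U ↔ car a ⊆ U
  car_ne : ∀ a, (car a).Nonempty
  clq : ∀ t : Finset S', Γ'.IsClique (t : Set S') → Γ.IsClique (cr car t : Set S)
  σ_sup : ∀ t : Finset S', σ t ≠ 0 → Γ'.IsClique (t : Set S') ∧ t.card = (cr car t).card
  top : ∀ τ : Finset S, Γ.IsClique (τ : Set S) → ∀ t0 ∈ Q Γ' (up τ) ∅,
    ∃ t ∈ Q Γ' (up τ) t0, cr car t = τ ∧ (σ t = 1 ∨ σ t = -1)
  sd_dq : ∀ U, ∀ a ∈ Sp (Q Γ' (up U) ∅), sd car σ (dq Γ' col' (up U) a) = dq Γ col U (sd car σ a)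
  ker : ∀ U, ∀ t0 ∈ Q Γ' (up U) ∅, ∀ b ∈ Sp (Q Γ' (up U) t0), dq Γ' col' (up U) b = 0 →
    sd car σ b = 0 → ∃ a ∈ Sp (Q Γ' (up U) t0), sd car σ a = 0 ∧ dq Γ' col' (up U) a = b

namespace Qi

variable {Γ' : SimpleGraph S'} {col' : S' → K'} {Γ : SimpleGraph S} {col : S → K}
  (q : Qi Γ' col' Γ col)

theorem sub_up {U : Finset S} {t : Finset S'} : t ⊆ q.up U ↔ cr q.car t ⊆ U := by
  simp only [cr, Finset.biUnion_subset, ← q.mem_up]; rfl

theorem up_mono {U U' : Finset S} (h : U ⊆ U') : q.up U ⊆ q.up U' := fun a ha =>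
  (q.mem_up _ a).2 (((q.mem_up _ a).1 ha).trans h)

theorem cr_ne {t : Finset S'} (h : t.Nonempty) : (cr q.car t).Nonempty :=
  let ⟨a, ha⟩ := h; (q.car_ne a).mono (car_sub_cr _ ha)

theorem cr_mem {U : Finset S} {t0 t : Finset S'} (h : t ∈ Q Γ' (q.up U) t0) :
    cr q.car t ∈ Q Γ U (cr q.car t0) := ⟨q.clq t h.1, cr_mono _ h.2.1, q.sub_up.1 h.2.2⟩

theorem cr_mem0 {U : Finset S} {t0 t : Finset S'} (h : t ∈ Q Γ' (q.up U) t0) :
    cr q.car t ∈ Q Γ U ∅ := ⟨q.clq t h.1, Finset.empty_subset _, q.sub_up.1 h.2.2⟩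

theorem sd_mem {U : Finset S} {t0 : Finset S'} {a : Finset S' →₀ ℤ} (h : a ∈ Sp (Q Γ' (q.up U) t0)) :
    sd q.car q.σ a ∈ Sp (Q Γ U (cr q.car t0)) :=
  map_mem (fun t ht y hy => by
    rw [sd_single] at hy
    have : y = cr q.car t := by
      by_contra n
      exact hy (by simp [single_eq_of_ne n])
    exact this ▸ q.cr_mem ht) h

theorem Q_sub {U : Finset S'} (t0 : Finset S') : Q Γ' U t0 ⊆ Q Γ' U ∅ :=
  fun _ h => ⟨h.1, Finset.empty_subset _, h.2.2⟩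

theorem empty_mem (U : Finset S') : ∅ ∈ Q Γ' U ∅ := ⟨by simp, subset_rfl, Finset.empty_subset _⟩

/-- a cell of full dimension over a given simplex -/
theorem exists_full {U τ : Finset S} {t0 : Finset S'} (h0 : t0 ∈ Q Γ' (q.up U) ∅)
    (hτ : τ ∈ Q Γ U (cr q.car t0)) :
    ∃ t ∈ Q Γ' (q.up U) t0, cr q.car t = τ ∧ (q.σ t = 1 ∨ q.σ t = -1) := by
  obtain ⟨t, ht, e⟩ := q.top τ hτ.1 t0 ⟨h0.1, h0.2.1, q.sub_up.2 hτ.2.1⟩
  exact ⟨t, ⟨ht.1, ht.2.1, ht.2.2.trans (q.up_mono hτ.2.2)⟩, e⟩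

theorem onto {U : Finset S} {t0 : Finset S'} (h0 : t0 ∈ Q Γ' (q.up U) ∅) {b : Finset S →₀ ℤ}
    (hb : b ∈ Sp (Q Γ U (cr q.car t0))) : ∃ a ∈ Sp (Q Γ' (q.up U) t0), sd q.car q.σ a = b := by
  rw [Sp, supported_eq_span_single] at hb
  induction hb using Submodule.span_induction with
  | mem x hx =>
    obtain ⟨τ, hτ, rfl⟩ := hx
    obtain ⟨t, ht, rfl, e⟩ := q.exists_full h0 hτ
    refine ⟨q.σ t • single t 1, Submodule.smul_mem _ _ (single_mem ht 1), ?_⟩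
    rw [map_smul, sd_single, smul_smul]
    rcases e with e | e <;> simp [e]
  | zero => exact ⟨0, zero_mem _, map_zero _⟩
  | add x y _ _ hx hy =>
    obtain ⟨a, ha, rfl⟩ := hx
    obtain ⟨b, hb, rfl⟩ := hy
    exact ⟨a + b, add_mem ha hb, map_add _ _ _⟩
  | smul r x _ hx =>
    obtain ⟨a, ha, rfl⟩ := hx
    exact ⟨r • a, Submodule.smul_mem _ _ ha, map_smul _ _ _⟩

variable (hc : ∀ s t, Γ'.Adj s t → col' s ≠ col' t)

include hc in
/-- cocycles lift -/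
theorem lift {U : Finset S} {t0 : Finset S'} (h0 : t0 ∈ Q Γ' (q.up U) ∅) {b : Finset S →₀ ℤ}
    (hb : b ∈ Sp (Q Γ U (cr q.car t0))) (hd : dq Γ col U b = 0) :
    ∃ a ∈ Sp (Q Γ' (q.up U) t0), dq Γ' col' (q.up U) a = 0 ∧ sd q.car q.σ a = b := by
  obtain ⟨a, ha, rfl⟩ := q.onto h0 hb
  obtain ⟨c, hc', e, d⟩ := q.ker U t0 h0 _ (cl_Q _ _ a ha) (dq_dq hc _ _)
    (by rw [q.sd_dq U a (Sp_mono (Q_sub t0) ha), hd])
  exact ⟨a - c, sub_mem ha hc', by rw [map_sub, d, sub_self], by rw [map_sub, e, sub_zero]⟩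

include hc in
/-- primitives lift -/
theorem prim {U : Finset S} {t0 : Finset S'} (h0 : t0 ∈ Q Γ' (q.up U) ∅) {x : Finset S' →₀ ℤ}
    (hx : x ∈ Sp (Q Γ' (q.up U) t0)) (hd : dq Γ' col' (q.up U) x = 0) {b : Finset S →₀ ℤ}
    (hb : b ∈ Sp (Q Γ U (cr q.car t0))) (e : dq Γ col U b = sd q.car q.σ x) :
    ∃ a ∈ Sp (Q Γ' (q.up U) t0), dq Γ' col' (q.up U) a = x := by
  obtain ⟨a, ha, rfl⟩ := q.onto h0 hb
  obtain ⟨c, hc', -, d⟩ := q.ker U t0 h0 (x - dq Γ' col' (q.up U) a) (sub_mem hx (cl_Q _ _ a ha))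
    (by rw [map_sub, hd, dq_dq hc, sub_zero])
    (by rw [map_sub, q.sd_dq U a (Sp_mono (Q_sub t0) ha), e, sub_self])
  exact ⟨a + c, add_mem ha hc', by rw [map_add, d, add_sub_cancel]⟩

theorem dq_sd {U : Finset S} {t0 : Finset S'} {x : Finset S' →₀ ℤ}
    (hx : x ∈ Sp (Q Γ' (q.up U) t0)) (hd : dq Γ' col' (q.up U) x = 0) :
    dq Γ col U (sd q.car q.σ x) = 0 := by
  rw [← q.sd_dq U x (Sp_mono (Q_sub t0) hx), hd, map_zero]

include hc in
/-- **exactness passes to the subdivision** -/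
theorem ex {U : Finset S} {t0 : Finset S'} (h0 : t0 ∈ Q Γ' (q.up U) ∅)
    {s : (Finset S →₀ ℤ) →ₗ[ℤ] ℤ} {s' : (Finset S' →₀ ℤ) →ₗ[ℤ] ℤ}
    (hs : ∀ a, s' a = s (sd q.car q.σ a)) (h : Ex (dq Γ col U) s (Sp (Q Γ U (cr q.car t0)))) :
    Ex (dq Γ' col' (q.up U)) s' (Sp (Q Γ' (q.up U) t0)) := fun x hx hd h1 => by
  obtain ⟨b, hb, e⟩ := h _ (q.sd_mem hx) (q.dq_sd hx hd) (by rw [← hs, h1])
  exact q.prim hc h0 hx hd hb e

/-- the subdivided chain -/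
abbrev z (z : Finset S → ℤ) : Finset S' → ℤ := sz q.car q.σ z

theorem z_sup {U : Finset S} {z : Finset S → ℤ} {n : ℕ}
    (h : ∀ t, z t ≠ 0 → t ∈ Q Γ U ∅ ∧ t.card = n) (t : Finset S') (ht : q.z z t ≠ 0) :
    t ∈ Q Γ' (q.up U) ∅ ∧ t.card = n := by
  obtain ⟨h1, h2⟩ := mul_ne_zero_iff.1 ht
  exact ⟨⟨(q.σ_sup t h1).1, Finset.empty_subset _, q.sub_up.2 (h _ h2).1.2.2⟩,
    (q.σ_sup t h1).2.trans (h _ h2).2⟩

theorem pe_dq {U : Finset S} (z : Finset S → ℤ) {t : Finset S'} (ht : t ∈ Q Γ' (q.up U) ∅) :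
    pe (q.z z) (dq Γ' col' (q.up U) (single t 1)) =
      q.σ t * pe z (dq Γ col U (single (cr q.car t) 1)) := by
  rw [pe_sz, q.sd_dq U _ (single_mem ht 1), sd_single, map_smul, map_smul, smul_eq_mul]

theorem z_top {U : Finset S} {z : Finset S → ℤ}
    (h : ∀ t0 ∈ Q Γ U ∅, ∃ t ∈ Q Γ U t0, z t = 1 ∨ z t = -1) :
    ∀ t0 ∈ Q Γ' (q.up U) ∅, ∃ t ∈ Q Γ' (q.up U) t0, q.z z t = 1 ∨ q.z z t = -1 := fun t0 h0 => by
  obtain ⟨τ, hτ, e⟩ := h _ (q.cr_mem0 h0)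
  obtain ⟨t, ht, rfl, e'⟩ := q.exists_full h0 hτ
  refine ⟨t, ht, ?_⟩
  rcases e with e | e <;> rcases e' with e' | e' <;> simp [sz, e, e']

theorem mem0 {U : Finset S} {b : Finset S →₀ ℤ} :
    b ∈ Sp (Q Γ U (cr q.car ∅)) ↔ b ∈ Sp (Q Γ U ∅) := by rw [cr_empty]

include hc in
/-- **walls** -/
theorem tor {T : Finset S} {m l ω : Finset S → ℤ} (h : Tor Γ col T m l ω) :
    Tor Γ' col' (q.up T) (q.z m) (q.z l) (q.z ω) where
  m_sup := q.z_sup h.m_sup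
  l_sup := q.z_sup h.l_sup
  ω_sup := q.z_sup h.ω_sup
  m_cyc t ht := by rw [q.pe_dq _ ht, h.m_cyc _ (q.cr_mem0 ht), mul_zero]
  l_cyc t ht := by rw [q.pe_dq _ ht, h.l_cyc _ (q.cr_mem0 ht), mul_zero]
  ω_cyc t ht := by rw [q.pe_dq _ ht, h.ω_cyc _ (q.cr_mem0 ht), mul_zero]
  top := q.z_top h.top
  link t0 h0 hn := q.ex hc h0 (pe_sz _ _ _) (h.link _ (q.cr_mem0 h0) (q.cr_ne hn))
  glob y hy hd h1 h2 h3 := by
    rw [pe_sz] at h1 h2 h3
    obtain ⟨b, hb, e⟩ := h.glob _ (q.mem0.1 (q.sd_mem hy)) (q.dq_sd hy hd) h1 h2 h3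
    exact q.prim hc (empty_mem _) hy hd (q.mem0.2 hb) e

include hc in
/-- **chambers** -/
theorem wal {ι : Type} [DecidableEq ι] {J : Set ι} {C : Finset S} {T : ι → Finset S}
    {o : Finset S → ℤ} {m l ω : ι → Finset S → ℤ} (hT : ∀ j ∈ J, T j ⊆ C)
    (h : Wal Γ col J C T o m l ω) :
    Wal Γ' col' J (q.up C) (fun j => q.up (T j)) (q.z o) (fun j => q.z (m j)) (fun j => q.z (l j))
      fun j => q.z (ω j) := by
  have n : ∀ t : Finset S', (∀ j ∈ J, ¬t ⊆ q.up (T j)) → ∀ j ∈ J, ¬cr q.car t ⊆ T j :=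
    fun t a j hj b => a j hj (q.sub_up.2 b)
  have w : ∀ j ∈ J, ∀ t ∈ Q Γ' (q.up (T j)) ∅, t ∈ Q Γ' (q.up C) ∅ := fun j hj t ht =>
    ⟨ht.1, ht.2.1, ht.2.2.trans (q.up_mono (hT j hj))⟩
  refine ⟨q.z_sup h.o_sup, q.z_top h.top, fun t ht a => ?_, fun j hj t ht => ?_,
    fun t ht hn a => ?_, fun j hj t ht hn => ?_, fun y hy hd a => ?_, fun j hj => ?_, ?_⟩
  · rw [q.pe_dq _ ht, h.st_in _ (q.cr_mem0 ht) (n t a), mul_zero]
  · rw [q.pe_dq _ (w j hj t ht), Qi.z, sz, ← mul_add, h.st_bd j hj _ (q.cr_mem0 ht), mul_zero]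
  · exact q.ex hc ht (pe_sz _ _ _) (h.link_in _ (q.cr_mem0 ht) (q.cr_ne hn) (n t a))
  · exact q.ex hc (w j hj t ht) (fun _ => rfl) (h.link_bd j hj _ (q.cr_mem0 ht) (q.cr_ne hn))
  · simp only [pe_sz] at a
    obtain ⟨b, hb, e⟩ := h.glob _ (q.mem0.1 (q.sd_mem hy)) (q.dq_sd hy hd) a
    exact q.prim hc (empty_mem _) hy hd (q.mem0.2 hb) e
  · obtain ⟨x, hx, hd, a⟩ := h.one j hj
    obtain ⟨y, hy, hd', rfl⟩ := q.lift hc (empty_mem _) (q.mem0.2 hx) hd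
    exact ⟨y, hy, hd', by simpa only [pe_sz] using a⟩
  · obtain ⟨j0, h0⟩ := h.two
    refine ⟨j0, fun j hj => ?_⟩
    obtain ⟨x, hx, hd, a⟩ := h0 j hj
    obtain ⟨y, hy, hd', rfl⟩ := q.lift hc (empty_mem _) (q.mem0.2 hx) hd
    exact ⟨y, hy, hd', by simpa only [pe_sz] using a⟩

end Qi

variable {F Nd Ed : Type} [Group F] [MulAction F Nd] [MulAction F Ed] [DecidableEq Ed]

/-- **the local structure of a subdivided mirror model** -/
def locSd {M : N255.Ce.Mir S K F Nd Ed} {M' : N255.Ce.Mir S' K' F Nd Ed} (L : Loc M)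
    (q : Qi M'.Γ M'.col M.Γ M.col) (hs : M'.src = M.src) (ht : M'.tgt = M.tgt) (hy : M'.ty = M.ty)
    (hsp : ∀ n, M'.sp n = q.up (M.sp n))
    (hcar : ∀ f a, q.car (M'.ρ f a) = (q.car a).image (M.ρ f))
    (hσ : ∀ f t, q.σ (t.image (M'.ρ f)) = q.σ t) : Loc M' :=
  have hcr : ∀ f t, cr q.car (t.image (M'.ρ f)) = (cr q.car t).image (M.ρ f) := fun f t => by
    simp only [cr, Finset.image_biUnion, hcar, Finset.biUnion_image]
  have mem : ∀ {n a}, a ∈ M'.sp n → ∀ s ∈ q.car a, s ∈ M.sp n := fun {n a} h s hs =>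
    (q.mem_up _ a).1 (hsp n ▸ h) hs
  { op := L.op
    op_ne := L.op_ne
    tgt_op := ht ▸ L.tgt_op
    tgt_eq := ht ▸ L.tgt_eq
    mid := ht ▸ hy ▸ L.mid
    wall := fun e => by rw [hsp, hsp, hs, ht]; exact q.up_mono (L.wall e)
    w1 := fun e e' a h h' => by
      obtain ⟨s, hs⟩ := q.car_ne a
      rw [ht] at h h' ⊢
      exact L.w1 e e' s (mem h s hs) (mem h' s hs)
    w2 := fun n n' a h h' hn ha ha' => by
      obtain ⟨s, hs'⟩ := q.car_ne a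
      rw [hy] at h h'
      obtain ⟨e, e1, e2, e3⟩ := L.w2 n n' s h h' hn (mem ha s hs') (mem ha' s hs')
      refine ⟨e, hs ▸ e1, hs ▸ e2, fun b hb => ?_⟩
      rw [Finset.mem_inter] at hb
      rw [hsp, ht, q.mem_up]
      exact fun x hx => e3 (Finset.mem_inter.2 ⟨mem hb.1 x hx, mem hb.2 x hx⟩)
    src_op := hs ▸ L.src_op
    vtx := hy ▸ L.vtx
    o := fun n => q.z (L.o n)
    m := fun e => q.z (L.m e)
    ω := fun e => q.z (L.ω e)
    ω_op := fun e t => by simp only [sz, L.ω_op, mul_neg]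
    o_smul := fun f n t hn h => by
      simp only [sz, hσ, hcr]
      rw [L.o_smul f n _ (hy ▸ hn) (q.sub_up.1 (hsp n ▸ h))]
    ω_smul := fun f e t h => by
      simp only [sz, hσ, hcr]
      rw [L.ω_smul f e _ (q.sub_up.1 (by rwa [hsp, ht] at h))]
    tor := fun e => by rw [hsp, ht]; exact q.tor M'.col_ne (L.tor e)
    wal := fun n hn => by
      simp only [hsp, hs, ht]
      exact q.wal M'.col_ne (fun e he => he ▸ L.wall e) (L.wal n (hy ▸ hn)) }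

end Crest.Agent.N233.Lo

end
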